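import Vale.Agent.P355.H387U.Place

/-! Row relations of the classes with four marks, and the kernel check of one term. -/

namespace Vale.Agent.P355.H387U

open Finset
open Vale.Agent.P355.H387 (ofD ofD_zero ofD_succ ofD_add ofD_lt ofD_congr dg_ofD ofD_dg dg_lt
  ofD_inj land_ofD land_63 land_0 shr_ofD ofD_pad dg pk ms vl pk_cons ms_cons vl_cons seq seq_eq
  sel sel_or AT upd par_aux0 par_aux1 land_lt)

/-- weights of row type `(i, i')`; `(15, 15)` is the product of three rows over the other three. -/
def wgt (i i' p : ℕ) : ℤ :=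
  if i = 15 then (if 4 ≤ p ∧ p < 7 then 1 else if 7 ≤ p ∧ p < 10 then -1 else 0)
  else (if p = i then 1 else 0) - (if p = i' then 1 else 0)

/-- weight on the right. -/
def vgt (i p : ℕ) : ℤ := if p = i then 1 else 0

/-- legal row types: two vertices; a vertex and a mark; two marks. -/
def okR (i i' : ℕ) : Bool :=
  (Nat.beq i 15 && Nat.beq i' 15) ||
  (Nat.ble 4 i && Nat.blt i 10 && Nat.blt i' 10 && !Nat.beq i i') ||
  (Nat.beq i 0 && Nat.beq i' 1) || (Nat.beq i 2 && Nat.beq i' 3) ||
  (Nat.blt i 2 && Nat.ble 2 i' && Nat.blt i' 4)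

/-- row types with right side `0`. -/
def isz (i i' : ℕ) : Bool := Nat.ble 4 i' || (Nat.beq i 0 && Nat.beq i' 1) ||
  (Nat.beq i 2 && Nat.beq i' 3)

/-- the constant on the right. -/
noncomputable def kap (b : Bool) : ℝ := if b then 1 else 6

/-- `G` with the weights `w` added in column `c`. -/
def addG (G : NM) (w : ℕ → ℤ) (c : ℕ) : NM := fun i j => if j = c then G i j + w i else G i j

/-- class function satisfying all row relations. -/
structure Law (F : Bool → NM → ℝ) : Prop extends Cls F where
  row : ∀ i i', okR i i' = true → ∀ b G,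
    ∑ j ∈ range 6, F (!b) (addG G (wgt i i') (4 + j))
      = if isz i i' = true then 0 else kap b * F b (addG G (vgt i) i')

/-! ### packed weights -/

/-- positive weights of a row type, packed in column `0`. -/
def wpos (i : ℕ) : ℕ := cond (Nat.beq i 15) 2348542582773833229926516573123823115410975302096082361342056865941063791578232789693699256269711610507952128 (Nat.shiftLeft 1 (Nat.mul 60 i))

/-- negative weights. -/
def wneg (i i' : ℕ) : ℕ := cond (Nat.beq i 15) 3599131035634557109370179356464777721185040172599557873536247702456671394533492837302300161892799771284208952474239959758368549926875869382388392278476092004630528 (Nat.shiftLeft 1 (Nat.mul 60 i'))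

/-- packed column. -/
def colN (a : ℕ → ℕ) : ℕ := ∑ p ∈ range 10, a p * 64 ^ (10 * p)

/-- executable form of `colN`. -/
def colE (a : ℕ → ℕ) : ℕ :=
  a 0 + a 1 * 1152921504606846976 + a 2 * 1329227995784915872903807060280344576 + a 3 * 1532495540865888858358347027150309183618739122183602176 + a 4 * 1766847064778384329583297500742918515827483896875618958121606201292619776 + a 5 * 2037035976334486086268445688409378161051468393665936250636140449354381299763336706183397376 + a 6 * 2348542582773833227889480596789337027375682548908319870707290971532209025114608443463698998384768703031934976 + a 7 * 2707685248164858261307045101702230179137145581421695874189921465443966120903931272499975005961073806735733604454495675614232576 + a 8 * 3121748550315992231381597229793166305748598142664971150859156959625371738819765620120306103063491971159826931121406622895447975679288285306290176 + a 9 * 3599131035634557106248430806148785487095757694641533306480604458089470064537190296255232548883112685719936728506816716098566612844395439751206812144692131084107776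

theorem colE_eq (a : ℕ → ℕ) : colE a = colN a := by
  unfold colE colN
  simp only [sum_range_succ, range_zero, sum_empty, zero_add, mul_zero, pow_zero, mul_one]
  norm_num

/-- check of one row type. -/
def okW (i i' : ℕ) : Bool :=
  ((List.range 10).all fun p => Nat.ble (wgt i i' p).toNat 1 && Nat.ble (-wgt i i' p).toNat 1) &&
  Nat.beq (wpos i) (colE fun p => (wgt i i' p).toNat) &&
  Nat.beq (wneg i i') (colE fun p => (-wgt i i' p).toNat)

theorem okW_all : ∀ i < 16, ∀ i' < 16, (!okR i i' || okW i i') = true := by decide +kernel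

theorem okW_spec {i i' : ℕ} (hi : i < 16) (hi' : i' < 16) (h : okR i i' = true) :
    (∀ p < 10, |wgt i i' p| ≤ 1) ∧ wpos i = colN (fun p => (wgt i i' p).toNat) ∧
    wneg i i' = colN (fun p => (-wgt i i' p).toNat) := by
  have h1 := okW_all i hi i' hi'
  rw [h] at h1
  simp only [Bool.not_true, Bool.false_or] at h1
  unfold okW at h1
  simp only [Bool.and_eq_true, List.all_eq_true] at h1
  obtain ⟨⟨h2, h3⟩, h4⟩ := h1
  refine ⟨fun p hp => ?_, ?_, ?_⟩
  · obtain ⟨a, b⟩ := h2 p (List.mem_range.2 hp)
    have a := Nat.le_of_ble_eq_true a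
    have b := Nat.le_of_ble_eq_true b
    rw [abs_le]
    constructor <;> omega
  · rw [Nat.eq_of_beq_eq_true h3, colE_eq]
  · rw [Nat.eq_of_beq_eq_true h4, colE_eq]

/-! ### Adding a column -/

theorem ofD_100' (f : ℕ → ℕ) : ofD 100 f = ∑ p ∈ range 10, ∑ q ∈ range 10, f (10 * p + q) * 64 ^ (10 * p + q) :=
  ofD_100 f

theorem colN_shift (a : ℕ → ℕ) (c : ℕ) (hc : c < 10) :
    colN a * 64 ^ c = ofD 100 fun i => if i % 10 = c then a (i / 10) else 0 := by
  rw [ofD_100]
  unfold colN
  rw [sum_mul]
  refine sum_congr rfl fun p hp => ?_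
  rw [sum_eq_single c]
  · have e1 : (10 * p + c) / 10 = p := by omega
    have e2 : (10 * p + c) % 10 = c := by omega
    rw [e1, e2, if_pos rfl, pow_add]; ring
  · intro q hq hqc
    have hq := mem_range.1 hq
    have e2 : (10 * p + q) % 10 = q := by omega
    rw [e2, if_neg hqc, zero_mul]
  · intro h; exact absurd (mem_range.2 hc) h

theorem enc_add {X : ℕ} {G : NM} (h : X = ofD 100 (df G)) (hs : ∀ i < 10, ∀ j < 10, |G i j| ≤ 16)
    (w : ℕ → ℤ) (hw : ∀ p < 10, |w p| ≤ 1) (c : ℕ) (hc : c < 10) :
    Enc (Nat.sub (Nat.add X (colN (fun p => (w p).toNat) * 64 ^ c))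
      (colN (fun p => (-w p).toNat) * 64 ^ c)) (addG G w c) := by
  have hb : ∀ i < 10, ∀ j < 10, |addG G w c i j| ≤ 31 := by
    intro i hi j hj
    unfold addG
    have h1 := abs_le.1 (hs i hi j hj)
    have h2 := abs_le.1 (hw i hi)
    rw [abs_le]
    split_ifs <;> constructor <;> linarith
  refine ⟨?_, hb⟩
  rw [colN_shift _ c hc, colN_shift _ c hc]
  have key : X + (ofD 100 fun i => if i % 10 = c then (w (i / 10)).toNat else 0)
      = ofD 100 (df (addG G w c)) + ofD 100 fun i => if i % 10 = c then (-w (i / 10)).toNat else 0 := by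
    rw [h, ofD_addf, ofD_addf]
    refine ofD_congr fun i hi => ?_
    have e1 := df_cast G (fun i hi j hj => (hs i hi j hj).trans (by norm_num)) i hi
    have e2 := df_cast _ hb i hi
    have e3 : addG G w c (i / 10) (i % 10)
      = if i % 10 = c then G (i / 10) (i % 10) + w (i / 10) else G (i / 10) (i % 10) := rfl
    rw [e3] at e2
    split_ifs with hic
    · rw [if_pos hic] at e2
      omega
    · rw [if_neg hic] at e2
      omega
  show X + _ - _ = _
  omega

/-- the right side: one unit added at cell `(i, c)`. -/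
theorem enc_cell {X : ℕ} {G : NM} (h : X = ofD 100 (df G)) (hs : ∀ i < 10, ∀ j < 10, |G i j| ≤ 16)
    (i : ℕ) (hi : i < 10) (c : ℕ) (hc : c < 10) :
    Enc (Nat.add X (Nat.shiftLeft 1 (Nat.add (Nat.mul 60 i) (Nat.mul 6 c)))) (addG G (vgt i) c) := by
  have h1 := enc_add h hs (vgt i) (fun p _ => by unfold vgt; split_ifs <;> norm_num) c hc
  have h2 : colN (fun p => (vgt i p).toNat) = 64 ^ (10 * i) := by
    unfold colN
    rw [sum_eq_single i]
    · unfold vgt; simp
    · intro p _ hp
      show (if p = i then (1 : ℤ) else 0).toNat * _ = 0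
      rw [if_neg hp]; simp
    · intro hh; exact absurd (mem_range.2 hi) hh
  have h3 : colN (fun p => (-vgt i p).toNat) = 0 := by
    unfold colN
    refine sum_eq_zero fun p _ => ?_
    show (-(if p = i then (1 : ℤ) else 0)).toNat * _ = 0
    split_ifs <;> simp
  rw [h2, h3, zero_mul] at h1
  have h4 : Nat.shiftLeft 1 (Nat.add (Nat.mul 60 i) (Nat.mul 6 c)) = 64 ^ (10 * i) * 64 ^ c := by
    rw [shl_eq, one_mul, ← pow_add]
    have : Nat.add (Nat.mul 60 i) (Nat.mul 6 c) = 6 * (10 * i + c) := by
      show 60 * i + 6 * c = _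
      ring
    rw [this, two_pow_six]
  rw [h4]
  exact h1

/-! ### Small matrices -/

theorem h16_bits : ∀ i < 100, Nat.testBit h16 (6 * i + 4) = true := by decide +kernel

theorem dig_small : ∀ d < 64, (Nat.testBit d 4 ^^ Nat.testBit d 5) = true → 16 ≤ d ∧ d ≤ 47 := by
  decide +kernel

/-- all exponents are between `-16` and `15`. -/
def small (X : ℕ) : Bool := Nat.beq (Nat.land (Nat.xor X (Nat.shiftRight X 1)) h16) h16

theorem small_spec {X : ℕ} (hX : X < 64 ^ 100) (h : small X = true) :
    ∃ G : NM, X = ofD 100 (df G) ∧ ∀ i < 10, ∀ j < 10, |G i j| ≤ 16 := by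
  have hd : ∀ i < 100, 16 ≤ dg 6 X i ∧ dg 6 X i ≤ 47 := by
    intro i hi
    refine dig_small _ (dg_lt X i) ?_
    have h1 : (X ^^^ (X >>> 1)) &&& h16 = h16 := Nat.eq_of_beq_eq_true h
    have h2 := congrArg (fun Y => Nat.testBit Y (6 * i + 4)) h1
    simp only [Nat.testBit_and, Nat.testBit_xor, Nat.testBit_shiftRight, h16_bits i hi,
      Bool.and_true] at h2
    have e4 : Nat.testBit (dg 6 X i) 4 = Nat.testBit X (6 * i + 4) := by
      unfold dg
      rw [Nat.testBit_mod_two_pow, Nat.testBit_shiftRight]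
      simp
    have e5 : Nat.testBit (dg 6 X i) 5 = Nat.testBit X (6 * i + 5) := by
      unfold dg
      rw [Nat.testBit_mod_two_pow, Nat.testBit_shiftRight]
      simp
    rw [e4, e5]
    have e6 : 1 + (6 * i + 4) = 6 * i + 5 := by omega
    rw [e6] at h2
    exact h2
  refine ⟨fun i j => (dg 6 X (10 * i + j) : ℤ) - 32, ?_, ?_⟩
  · conv_lhs => rw [← ofD_dg 100 X hX]
    refine ofD_congr fun i hi => ?_
    have e7 : 10 * (i / 10) + i % 10 = i := Nat.div_add_mod i 10
    have e8 : df (fun i j => (dg 6 X (10 * i + j) : ℤ) - 32) i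
      = ((dg 6 X (10 * (i / 10) + i % 10) : ℤ) - 32 + 32).toNat := rfl
    rw [e8, e7]
    have := hd i hi
    omega
  · intro i hi j hj
    have := hd (10 * i + j) (by omega)
    show |(dg 6 X (10 * i + j) : ℤ) - 32| ≤ 16
    rw [abs_le]
    constructor <;> omega

/-! ### one term -/

/-- parity word. -/
def pw (b : ℕ) : ℕ := sel b 0 pb
/-- parity word of the other parity. -/
def pw' (b : ℕ) : ℕ := sel b pb 0

/-- one term: placed matrix = entry of the class table, then accumulate `lam`. -/
noncomputable def tm (ct : CT) (X pw rc lam : ℕ) (T : AT) (k : AT → Bool) : Bool :=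
  seq (Nat.land rc 63) fun lo =>
  seq (Nat.land (Nat.shiftRight rc 6) 16383) fun hi =>
  seq (Nat.shiftRight rc 20) fun rp =>
  place X rp fun Y =>
  cond (Nat.beq (Nat.add Y pw) (ct.get hi lo)) (T.ins hi (upd lam lo) k) false

theorem tm_sound {F : Bool → NM → ℝ} (hF : Cls F) {ct : CT} {X : ℕ} {G : NM} (h : Enc X G)
    (b : Bool) (rc lam : ℕ) {T : AT} {S : ℕ} {V : ℝ} (hT : AF F ct T S V) (k : AT → Bool)
    (hk : tm ct X (cond b pb 0) rc lam T k = true) :
    ∃ T', AF F ct T' (S + lam + 1) (V + lam * F b G) ∧ k T' = true := by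
  unfold tm at hk
  simp only [seq_eq] at hk
  obtain ⟨Y, G', e1, e2, e3⟩ := place_sound hF h _ _ hk
  obtain ⟨E, hE⟩ : ∃ E, E = ct.get (Nat.land (Nat.shiftRight rc 6) 16383) (Nat.land rc 63) := ⟨_, rfl⟩
  rw [← hE] at e3
  obtain ⟨z, hz⟩ : ∃ z, z = Nat.beq (Nat.add Y (cond b pb 0)) E := ⟨_, rfl⟩
  rw [← hz] at e3
  cases z with
  | false => simp at e3
  | true =>
    simp only [cond_true] at e3
    obtain ⟨T', f1, f2⟩ := hT.ins _ _ lam k e3
    refine ⟨T', ?_, f2⟩
    have : FV F (ct.get (Nat.land (Nat.shiftRight rc 6) 16383) (Nat.land rc 63)) = F b G := by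
      rw [← hE, ← Nat.eq_of_beq_eq_true hz.symm, FV_enc hF e1 b, e2]
    rw [← this]
    exact f1

/-- `n` terms of the left-hand side; `wp`, `wn` = packed weights in column `3 + ..`. -/
noncomputable def six (ct : CT) (X pw lam : ℕ) (n : ℕ) : ℕ → ℕ → ℕ → AT → (AT → Bool) → Bool :=
  Nat.rec (motive := fun _ => ℕ → ℕ → ℕ → AT → (AT → Bool) → Bool) (fun _ _ _ T k => k T)
    (fun _ ih wp wn R T k =>
      seq (Nat.shiftLeft wp 6) fun wp' =>
      seq (Nat.shiftLeft wn 6) fun wn' =>
      seq (Nat.sub (Nat.add X wp') wn') fun Xj =>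
      seq (Nat.land R 281474976710655) fun rc =>
      tm ct Xj pw rc lam T fun T' =>
      seq (Nat.shiftRight R 48) fun R' => ih wp' wn' R' T' k) n

theorem six_sound {F : Bool → NM → ℝ} (hF : Cls F) {ct : CT} {X : ℕ} {G : NM}
    (h : X = ofD 100 (df G)) (hs : ∀ i < 10, ∀ j < 10, |G i j| ≤ 16) (b : Bool) (lam : ℕ)
    (w : ℕ → ℤ) (hw : ∀ p < 10, |w p| ≤ 1) (k : AT → Bool) (n : ℕ) :
    ∀ (c : ℕ) (_ : c + n < 10) (R : ℕ) (T : AT) (S : ℕ) (V : ℝ), AF F ct T S V →
    six ct X (cond b pb 0) lam n (colN (fun p => (w p).toNat) * 64 ^ c)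
      (colN (fun p => (-w p).toNat) * 64 ^ c) R T k = true →
    ∃ T', AF F ct T' (S + n * (lam + 1))
      (V + lam * ∑ j ∈ range n, F b (addG G w (c + 1 + j))) ∧ k T' = true := by
  induction n with
  | zero =>
    intro c _ R T S V hT hk
    exact ⟨T, by simpa using hT, hk⟩
  | succ n ih =>
    intro c hc R T S V hT hk
    have hstep : six ct X (cond b pb 0) lam (n + 1) (colN (fun p => (w p).toNat) * 64 ^ c)
      (colN (fun p => (-w p).toNat) * 64 ^ c) R T k
      = seq (Nat.shiftLeft (colN (fun p => (w p).toNat) * 64 ^ c) 6) fun wp' =>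
      seq (Nat.shiftLeft (colN (fun p => (-w p).toNat) * 64 ^ c) 6) fun wn' =>
      seq (Nat.sub (Nat.add X wp') wn') fun Xj =>
      seq (Nat.land R 281474976710655) fun rc =>
      tm ct Xj (cond b pb 0) rc lam T fun T' =>
      seq (Nat.shiftRight R 48) fun R' => six ct X (cond b pb 0) lam n wp' wn' R' T' k := rfl
    rw [hstep] at hk
    simp only [seq_eq] at hk
    have e1 : ∀ a : ℕ → ℕ, Nat.shiftLeft (colN a * 64 ^ c) 6 = colN a * 64 ^ (c + 1) := by
      intro a
      rw [shl_eq, pow_succ]; ring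
    rw [e1, e1] at hk
    have h2 := enc_add h hs w hw (c + 1) (by omega)
    obtain ⟨T1, f1, f2⟩ := tm_sound hF h2 b _ lam hT _ hk
    obtain ⟨T2, g1, g2⟩ := ih (c + 1) (by omega) _ T1 _ _ f1 f2
    refine ⟨T2, ?_, g2⟩
    convert g1 using 1
    · ring
    · rw [sum_range_succ']
      have e3 : ∀ j, c + 1 + 1 + j = c + 1 + (j + 1) := fun j => by ring
      simp only [e3, add_zero]
      ring

end Vale.Agent.P355.H387U
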