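import Vale.Agent.P355.H387U.Perm

/-! Packed 10 x 10 exponent matrices (indices `0, 1, 2` = marks): encoding relation and its stability
under the packed operations. -/

namespace Vale.Agent.P355.H387U

open Finset
open Vale.Agent.P355.H387 (ofD ofD_zero ofD_succ ofD_add ofD_lt ofD_congr dg_ofD ofD_dg dg_lt ofD_inj land_ofD land_63 land_0 shr_ofD ofD_pad dg)

/-- matrix with natural indices. -/
abbrev NM : Type := ℕ → ℕ → ℤ

/-- digits of a matrix. -/
def df (G : NM) (i : ℕ) : ℕ := (G (i / 10) (i % 10) + 32).toNat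

/-- `X` encodes `G`. -/
def Enc (X : ℕ) (G : NM) : Prop := X = ofD 100 (df G) ∧ ∀ i < 10, ∀ j < 10, |G i j| ≤ 31

theorem df_cast (G : NM) (hG : ∀ i < 10, ∀ j < 10, |G i j| ≤ 31) (i : ℕ) (hi : i < 100) :
    (df G i : ℤ) = G (i / 10) (i % 10) + 32 := by
  have h := abs_le.1 (hG (i / 10) (by omega) (i % 10) (by omega))
  unfold df
  rw [Int.toNat_of_nonneg (by linarith)]

theorem df_lt (G : NM) (hG : ∀ i < 10, ∀ j < 10, |G i j| ≤ 31) (i : ℕ) (hi : i < 100) :
    df G i < 64 := by
  have h := abs_le.1 (hG (i / 10) (by omega) (i % 10) (by omega))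
  have := df_cast G hG i hi
  omega

theorem df_pos (G : NM) (hG : ∀ i < 10, ∀ j < 10, |G i j| ≤ 31) (i : ℕ) (hi : i < 100) :
    0 < df G i := by
  have h := abs_le.1 (hG (i / 10) (by omega) (i % 10) (by omega))
  have := df_cast G hG i hi
  omega

/-- matrix read off a number. -/
def matOf (X : ℕ) : NM := fun i j => (dg 6 X (10 * i + j) : ℤ) - 32

theorem Enc.matOf {X : ℕ} {G : NM} (h : Enc X G) : ∀ i < 10, ∀ j < 10, matOf X i j = G i j := by
  intro i hi j hj
  unfold H387U.matOf
  rw [h.1, dg_ofD 100 _ (fun i hi => df_lt G h.2 i hi) _ (by omega), df_cast G h.2 _ (by omega)]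
  have e1 : (10 * i + j) / 10 = i := by omega
  have e2 : (10 * i + j) % 10 = j := by omega
  rw [e1, e2]; ring

theorem Enc.bp {X : ℕ} {G : NM} (h : Enc X G) (s : ℕ) {g g' : ℕ → ℕ} (hg : Pm g g')
    (hs : ∀ p < 10, f10 s p = 60 * g p) : Enc (bp X s) (fun i j => G (g' i) j) := by
  refine ⟨?_, fun i hi j hj => h.2 _ (hg.lt' i hi) _ hj⟩
  rw [h.1, bp_ofD _ (fun i hi => df_lt G h.2 i hi) s hg hs]
  refine ofD_congr fun i hi => ?_
  unfold df
  have e1 : (10 * g' (i / 10) + i % 10) / 10 = g' (i / 10) := by omega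
  have e2 : (10 * g' (i / 10) + i % 10) % 10 = i % 10 := by omega
  rw [e1, e2]

theorem Enc.dp {X : ℕ} {G : NM} (h : Enc X G) (s : ℕ) {g g' : ℕ → ℕ} (hg : Pm g g')
    (hs : ∀ p < 10, f6 s p = 6 * g p) : Enc (dp X s) (fun i j => G i (g' j)) := by
  refine ⟨?_, fun i hi j hj => h.2 _ hi _ (hg.lt' j hj)⟩
  rw [h.1, dp_ofD _ (fun i hi => df_lt G h.2 i hi) s hg hs]
  refine ofD_congr fun i hi => ?_
  unfold df
  have h7 := hg.lt' (i % 10) (by omega)
  have e1 : (10 * (i / 10) + g' (i % 10)) / 10 = i / 10 := by omega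
  have e2 : (10 * (i / 10) + g' (i % 10)) % 10 = g' (i % 10) := by omega
  rw [e1, e2]

theorem ofD_addf (n : ℕ) (f g : ℕ → ℕ) : ofD n f + ofD n g = ofD n fun i => f i + g i := by
  unfold ofD
  rw [← sum_add_distrib]
  exact sum_congr rfl fun i _ => by ring

/-- twice the bias: all digits `64`. -/
def b2 : ℕ := 4215380895371167449917366718670385931187246966087554946027334430161933014768668593167956367184359410070550234017829373137671264584545295550869206180687201205903422784407882690728000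

theorem b2_eq : b2 = ofD 100 fun _ => 64 := by decide +kernel

/-- sign change. -/
def ng (X : ℕ) : ℕ := Nat.sub b2 X

theorem Enc.ng {X : ℕ} {G : NM} (h : Enc X G) : Enc (ng X) (fun i j => - G i j) := by
  refine ⟨?_, fun i hi j hj => by rw [abs_neg]; exact h.2 i hi j hj⟩
  have h1 : ofD 100 (df fun i j => - G i j) + ofD 100 (df G) = b2 := by
    rw [ofD_addf, b2_eq]
    refine ofD_congr fun i hi => ?_
    have e1 := df_cast G h.2 i hi
    have e2 := df_cast (fun i j => - G i j) (fun i hi j hj => by rw [abs_neg]; exact h.2 i hi j hj) i hi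
    omega
  unfold H387U.ng
  show b2 - X = _
  rw [← h1, h.1]
  omega

end Vale.Agent.P355.H387U
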