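import Vale.Agent.P355.H387U.Trp

/-! The block of the marks: replacing it by minus its transpose. -/

namespace Vale.Agent.P355.H387U

open Finset
open Vale.Agent.P355.H387 (ofD ofD_zero ofD_succ ofD_add ofD_lt ofD_congr dg_ofD ofD_dg dg_lt ofD_inj land_ofD land_63 land_0 shr_ofD ofD_pad dg)

/-- minus the transpose in the block of the marks. -/
def fold (G : NM) : NM := fun i j => if i < 4 ∧ j < 4 then - G j i else G i j

/-- mask of the block of the marks. -/
def mB : ℕ := 25711007175648303565083278988414201866008721611539426612084735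

theorem mB_eq : mB = ofD 100 fun i => if i / 10 < 4 ∧ i % 10 < 4 then 63 else 0 := by decide +kernel

/-- twice the bias in this block. -/
def bB : ℕ := 26119118400658594097862378654896966974992987033944814336086080

theorem bB_eq : bB = ofD 100 fun i => if i / 10 < 4 ∧ i % 10 < 4 then 64 else 0 := by decide +kernel

/-- packed form of `fold`. -/
def fd (X : ℕ) : ℕ :=
  Nat.add (Nat.sub X (Nat.land X mB)) (Nat.sub bB (Nat.land (trp X) mB))

theorem ofD_sub (n : ℕ) (f g : ℕ → ℕ) (h : ∀ i < n, g i ≤ f i) :
    ofD n f - ofD n g = ofD n fun i => f i - g i := by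
  have h1 : ofD n f = ofD n g + ofD n fun i => f i - g i := by
    rw [ofD_addf]
    exact ofD_congr fun i hi => by have := h i hi; omega
  rw [h1]; omega

theorem land_mB (f : ℕ → ℕ) (hf : ∀ i < 100, f i < 64) :
    Nat.land (ofD 100 f) mB = ofD 100 fun i => if i / 10 < 4 ∧ i % 10 < 4 then f i else 0 := by
  rw [mB_eq, land_ofD 100 _ _ hf (fun i hi => by split_ifs <;> norm_num)]
  refine ofD_congr fun i hi => ?_
  split_ifs with h
  · exact land_63 _ (hf _ hi)
  · exact land_0 _

theorem Enc.fd {X : ℕ} {G : NM} (h : Enc X G) : Enc (fd X) (fold G) := by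
  have hb : ∀ i < 10, ∀ j < 10, |fold G i j| ≤ 31 := by
    intro i hi j hj
    unfold fold
    split_ifs
    · rw [abs_neg]; exact h.2 j hj i hi
    · exact h.2 i hi j hj
  refine ⟨?_, hb⟩
  have ht := h.trp
  unfold H387U.fd
  show (X - Nat.land X mB) + (bB - Nat.land (H387U.trp X) mB) = _
  rw [ht.1, h.1, land_mB _ (fun i hi => df_lt _ ht.2 i hi), land_mB _ (fun i hi => df_lt _ h.2 i hi),
    ofD_sub, bB_eq, ofD_sub, ofD_addf]
  · refine ofD_congr fun i hi => ?_
    have e1 := df_cast G h.2 i hi
    have e2 := df_cast _ ht.2 i hi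
    have e3 := df_cast _ hb i hi
    have e4 := df_lt _ ht.2 i hi
    by_cases hc : i / 10 < 4 ∧ i % 10 < 4
    · have e5 : fold G (i / 10) (i % 10) = - G (i % 10) (i / 10) := by unfold fold; rw [if_pos hc]
      rw [e5] at e3
      simp only [if_pos hc]
      omega
    · have e5 : fold G (i / 10) (i % 10) = G (i / 10) (i % 10) := by unfold fold; rw [if_neg hc]
      rw [e5] at e3
      simp only [if_neg hc]
      omega
  · intro i hi
    have e4 := df_lt _ ht.2 i hi
    split_ifs <;> omega
  · intro i hi
    split_ifs <;> omega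

end Vale.Agent.P355.H387U
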