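import Vale.Agent.P355.H387.Dig

/-! Permuting the blocks and the digits of a packed 10 x 10 matrix. -/

namespace Vale.Agent.P355.H387U

open Finset
open Vale.Agent.P355.H387 (ofD ofD_zero ofD_succ ofD_add ofD_lt ofD_congr dg_ofD ofD_dg dg_lt ofD_inj land_ofD land_63 land_0 shr_ofD ofD_pad dg)

/-- move block `p` (60 bits) to the bit position given by the `p`-th 10-bit field of `s`. -/
def bp (X s : ℕ) : ℕ :=
  Nat.add (Nat.shiftLeft (Nat.land X 1152921504606846975) (Nat.land s 1023)) (Nat.add (Nat.shiftLeft (Nat.land (Nat.shiftRight X 60) 1152921504606846975) (Nat.land (Nat.shiftRight s 10) 1023)) (Nat.add (Nat.shiftLeft (Nat.land (Nat.shiftRight X 120) 1152921504606846975) (Nat.land (Nat.shiftRight s 20) 1023)) (Nat.add (Nat.shiftLeft (Nat.land (Nat.shiftRight X 180) 1152921504606846975) (Nat.land (Nat.shiftRight s 30) 1023)) (Nat.add (Nat.shiftLeft (Nat.land (Nat.shiftRight X 240) 1152921504606846975) (Nat.land (Nat.shiftRight s 40) 1023)) (Nat.add (Nat.shiftLeft (Nat.land (Nat.shiftRight X 300) 1152921504606846975) (Nat.land (Nat.shiftRight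 s 50) 1023)) (Nat.add (Nat.shiftLeft (Nat.land (Nat.shiftRight X 360) 1152921504606846975) (Nat.land (Nat.shiftRight s 60) 1023)) (Nat.add (Nat.shiftLeft (Nat.land (Nat.shiftRight X 420) 1152921504606846975) (Nat.land (Nat.shiftRight s 70) 1023)) (Nat.add (Nat.shiftLeft (Nat.land (Nat.shiftRight X 480) 1152921504606846975) (Nat.land (Nat.shiftRight s 80) 1023)) (Nat.shiftLeft (Nat.land (Nat.shiftRight X 540) 1152921504606846975) (Nat.land (Nat.shiftRight s 90) 1023))))))))))

/-- move digit `q` of every block to the bit position (in the block) given by the `q`-th 6-bit field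
of `s`. -/
def dp (X s : ℕ) : ℕ :=
  Nat.add (Nat.shiftLeft (Nat.land X 226745255244977097890321299457280996434657530873772146180741787969521791340980592856845766470137829622958352866973919093615235675139071966712700492090289543752712255) (Nat.land s 63)) (Nat.add (Nat.shiftLeft (Nat.land (Nat.shiftRight X 6) 226745255244977097890321299457280996434657530873772146180741787969521791340980592856845766470137829622958352866973919093615235675139071966712700492090289543752712255) (Nat.land (Nat.shiftRight s 6) 63)) (Nat.add (Nat.shiftLeft (Nat.land (Nat.shiftRight X 12) 226745255244977097890321299457280996434657530873772146180741787969521791340980592856845766470137829622958352866973919093615235675139071966712700492090289543752712255) (Nat.land (Nat.shiftRight s 12) 63)) (Nat.add (Nat.shiftLeft (Nat.land (Nat.shiftRight X 18) 226745255244977097890321299457280996434657530873772146180741787969521791340980592856845766470137829622958352866973919093615235675139071966712700492090289543752712255) (Nat.land (Nat.shiftRight s 18) 63)) (Nat.add (Nat.shiftLeft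 (Nat.land (Nat.shiftRight X 24) 226745255244977097890321299457280996434657530873772146180741787969521791340980592856845766470137829622958352866973919093615235675139071966712700492090289543752712255) (Nat.land (Nat.shiftRight s 24) 63)) (Nat.add (Nat.shiftLeft (Nat.land (Nat.shiftRight X 30) 226745255244977097890321299457280996434657530873772146180741787969521791340980592856845766470137829622958352866973919093615235675139071966712700492090289543752712255) (Nat.land (Nat.shiftRight s 30) 63)) (Nat.add (Nat.shiftLeft (Nat.land (Nat.shiftRight X 36) 226745255244977097890321299457280996434657530873772146180741787969521791340980592856845766470137829622958352866973919093615235675139071966712700492090289543752712255) (Nat.land (Nat.shiftRight s 36) 63)) (Nat.add (Nat.shiftLeft (Nat.land (Nat.shiftRight X 42) 226745255244977097890321299457280996434657530873772146180741787969521791340980592856845766470137829622958352866973919093615235675139071966712700492090289543752712255) (Nat.land (Nat.shiftRight s 42) 63)) (Nat.add (Nat.shiftLeft (Nat.land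 (Nat.shiftRight X 48) 226745255244977097890321299457280996434657530873772146180741787969521791340980592856845766470137829622958352866973919093615235675139071966712700492090289543752712255) (Nat.land (Nat.shiftRight s 48) 63)) (Nat.shiftLeft (Nat.land (Nat.shiftRight X 54) 226745255244977097890321299457280996434657530873772146180741787969521791340980592856845766470137829622958352866973919093615235675139071966712700492090289543752712255) (Nat.land (Nat.shiftRight s 54) 63))))))))))

/-- mask of the lowest digit of every block. -/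
def mqC : ℕ := 226745255244977097890321299457280996434657530873772146180741787969521791340980592856845766470137829622958352866973919093615235675139071966712700492090289543752712255

/-- all 100 digits equal to 32 (the zero matrix). -/
def biasC : ℕ := 2107690447685583724958683359335192965593623483043777473013667215080966507384334296583978183592179705035275117008914686568835632292272647775434603090343600602951711392203941345364000

/-- all 100 digits equal to 16. -/
def h16 : ℕ := 1053845223842791862479341679667596482796811741521888736506833607540483253692167148291989091796089852517637558504457343284417816146136323887717301545171800301475855696101970672682000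

/-- 10-bit field. -/
def f10 (s p : ℕ) : ℕ := Nat.land (Nat.shiftRight s (10 * p)) 1023

/-- 6-bit field. -/
def f6 (s p : ℕ) : ℕ := Nat.land (Nat.shiftRight s (6 * p)) 63

theorem bp_eq (X s : ℕ) : bp X s = ∑ p ∈ range 10,
    Nat.shiftLeft (Nat.land (Nat.shiftRight X (60 * p)) 1152921504606846975) (f10 s p) := by
  simp only [sum_range_succ, range_zero, sum_empty, zero_add]
  unfold bp f10
  simp only [Nat.mul_zero]
  have h0 : ∀ Y : ℕ, Nat.shiftRight Y 0 = Y := fun Y => rfl
  simp only [h0, Nat.add_eq, Nat.reduceMul]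
  ring

theorem dp_eq (X s : ℕ) : dp X s = ∑ p ∈ range 10,
    Nat.shiftLeft (Nat.land (Nat.shiftRight X (6 * p)) mqC) (f6 s p) := by
  simp only [sum_range_succ, range_zero, sum_empty, zero_add]
  unfold dp f6 mqC
  simp only [Nat.mul_zero]
  have h0 : ∀ Y : ℕ, Nat.shiftRight Y 0 = Y := fun Y => rfl
  simp only [h0, Nat.add_eq, Nat.reduceMul]
  ring

theorem shl_eq (a k : ℕ) : Nat.shiftLeft a k = a * 2 ^ k := Nat.shiftLeft_eq a k

theorem ofD_blocks (n : ℕ) (f : ℕ → ℕ) :
    ofD (10 * n) f = ∑ P ∈ range n, 64 ^ (10 * P) * ofD 10 fun j => f (10 * P + j) := by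
  induction n with
  | zero => simp [ofD]
  | succ n ih => rw [mul_add, mul_one, ofD_add, ih, sum_range_succ]

theorem block_eq (f : ℕ → ℕ) (hf : ∀ i < 100, f i < 64) (p : ℕ) (hp : p < 10) :
    Nat.land (Nat.shiftRight (ofD 100 f) (60 * p)) 1152921504606846975 = ofD 10 fun j => f (10 * p + j) := by
  have h1 : 60 * p = 6 * (10 * p) := by ring
  rw [h1, shr_ofD 100 (10 * p) f hf (by omega)]
  have h2 : 100 - 10 * p = 10 + (90 - 10 * p) := by omega
  rw [h2, ofD_add]
  have h3 : ∀ Y, Nat.land Y 1152921504606846975 = Y % 2 ^ 60 := fun Y => Nat.and_two_pow_sub_one_eq_mod Y 60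
  rw [h3]
  have h4 : (64 : ℕ) ^ 10 = 2 ^ 60 := by norm_num
  rw [h4, Nat.add_mul_mod_self_left]
  exact Nat.mod_eq_of_lt (by rw [← h4]; exact ofD_lt 10 _ fun i hi => hf _ (by omega))

/-- a permutation of `0..9` with its inverse. -/
structure Pm (g g' : ℕ → ℕ) : Prop where
  lt : ∀ i < 10, g i < 10
  lt' : ∀ i < 10, g' i < 10
  gg : ∀ i < 10, g' (g i) = i
  gg' : ∀ i < 10, g (g' i) = i

theorem Pm.sum {g g' : ℕ → ℕ} (h : Pm g g') (A : ℕ → ℕ) :
    ∑ p ∈ range 10, A (g p) = ∑ p ∈ range 10, A p := by
  refine Finset.sum_nbij' g g' ?_ ?_ ?_ ?_ ?_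
  · intro i hi; exact mem_range.2 (h.lt i (mem_range.1 hi))
  · intro i hi; exact mem_range.2 (h.lt' i (mem_range.1 hi))
  · intro i hi; exact h.gg i (mem_range.1 hi)
  · intro i hi; exact h.gg' i (mem_range.1 hi)
  · intro i _; rfl

theorem two_pow_six (k : ℕ) : (2 : ℕ) ^ (6 * k) = 64 ^ k := by rw [pow_mul]; norm_num

theorem bp_key (f : ℕ → ℕ) (hf : ∀ i < 100, f i < 64) (s : ℕ) (g : ℕ → ℕ)
    (hs : ∀ p < 10, f10 s p = 60 * g p) (p : ℕ) (hp : p < 10) :
    Nat.shiftLeft (Nat.land (Nat.shiftRight (ofD 100 f) (60 * p)) 1152921504606846975) (f10 s p)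
      = 64 ^ (10 * g p) * ofD 10 fun j => f (10 * p + j) := by
  rw [block_eq f hf p hp, hs p hp, shl_eq, mul_comm]
  have : 60 * g p = 6 * (10 * g p) := by ring
  rw [this, two_pow_six]

theorem bp_fin (f : ℕ → ℕ) (g' : ℕ → ℕ) :
    ∑ P ∈ range 10, 64 ^ (10 * P) * (ofD 10 fun j => f (10 * g' P + j))
      = ofD (10 * 10) fun i => f (10 * g' (i / 10) + i % 10) := by
  rw [ofD_blocks]
  refine sum_congr rfl fun P hP => ?_
  have : (ofD 10 fun j => f (10 * g' P + j)) = ofD 10 fun j => f (10 * g' ((10 * P + j) / 10) + (10 * P + j) % 10) := by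
    refine ofD_congr fun j hj => ?_
    have e1 : (10 * P + j) / 10 = P := by omega
    have e2 : (10 * P + j) % 10 = j := by omega
    rw [e1, e2]
  rw [this]

theorem bp_ofD (f : ℕ → ℕ) (hf : ∀ i < 100, f i < 64) (s : ℕ) {g g' : ℕ → ℕ} (h : Pm g g')
    (hs : ∀ p < 10, f10 s p = 60 * g p) :
    bp (ofD 100 f) s = ofD (10 * 10) fun i => f (10 * g' (i / 10) + i % 10) := by
  rw [bp_eq, ← bp_fin, ← h.sum (fun P => 64 ^ (10 * P) * ofD 10 fun j => f (10 * g' P + j))]
  refine sum_congr rfl fun p hp => ?_
  have hp := mem_range.1 hp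
  rw [bp_key f hf s g hs p hp, h.gg p hp]

theorem mqC_eq : mqC = ofD 100 fun i => if i % 10 = 0 then 63 else 0 := by decide +kernel

theorem mask_eq (f : ℕ → ℕ) (hf : ∀ i < 100, f i < 64) (q : ℕ) (hq : q < 10) :
    Nat.land (Nat.shiftRight (ofD 100 f) (6 * q)) mqC
      = ofD 100 fun i => if i % 10 = 0 then f (i + q) else 0 := by
  rw [shr_ofD 100 q f hf (by omega)]
  have h1 : ofD (100 - q) (fun i => f (q + i)) = ofD 100 fun i => if i + q < 100 then f (q + i) else 0 := by
    have h2 : 100 = (100 - q) + q := by omega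
    conv_rhs => rw [h2]
    rw [ofD_pad (100 - q) q _ fun i hi hi' => if_neg (by omega)]
    exact ofD_congr fun i hi => (if_pos (by omega)).symm
  rw [h1, mqC_eq, land_ofD 100 _ _ (fun i hi => by
    split_ifs
    · exact hf _ (by omega)
    · norm_num) (fun i hi => by split_ifs <;> norm_num)]
  refine ofD_congr fun i hi => ?_
  by_cases h3 : i % 10 = 0
  · rw [if_pos h3, if_pos h3, if_pos (by omega), land_63 _ (hf _ (by omega)), add_comm]
  · rw [if_neg h3, if_neg h3, land_0]

theorem dp_key (f : ℕ → ℕ) (hf : ∀ i < 100, f i < 64) (s : ℕ) (g : ℕ → ℕ)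
    (hs : ∀ p < 10, f6 s p = 6 * g p) (q : ℕ) (hq : q < 10) :
    Nat.shiftLeft (Nat.land (Nat.shiftRight (ofD 100 f) (6 * q)) mqC) (f6 s q)
      = ∑ P ∈ range 10, f (10 * P + q) * 64 ^ (10 * P + g q) := by
  rw [mask_eq f hf q hq, hs q hq, shl_eq, two_pow_six]
  have h2 := ofD_blocks 10 fun i => if i % 10 = 0 then f (i + q) else 0
  rw [show 10 * 10 = 100 from rfl] at h2
  rw [h2, sum_mul]
  refine sum_congr rfl fun P hP => ?_
  have h3 : ofD 10 (fun j => if (10 * P + j) % 10 = 0 then f (10 * P + j + q) else 0) = f (10 * P + q) := by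
    unfold ofD
    rw [sum_eq_single 0]
    · simp
    · intro j hj hj0
      have := mem_range.1 hj
      have h5 : ¬ (10 * P + j) % 10 = 0 := by omega
      simp only [h5, if_false, zero_mul]
    · intro h; exact absurd (mem_range.2 (by norm_num)) h
  rw [h3, pow_add]
  ring

theorem dp_fin (f : ℕ → ℕ) (g' : ℕ → ℕ) :
    ∑ Q ∈ range 10, ∑ P ∈ range 10, f (10 * P + g' Q) * 64 ^ (10 * P + Q)
      = ofD (10 * 10) fun i => f (10 * (i / 10) + g' (i % 10)) := by
  rw [ofD_blocks, sum_comm]
  refine sum_congr rfl fun P hP => ?_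
  unfold ofD
  rw [mul_sum]
  refine sum_congr rfl fun j hj => ?_
  have hj := mem_range.1 hj
  have e1 : (10 * P + j) / 10 = P := by omega
  have e2 : (10 * P + j) % 10 = j := by omega
  simp only [e1, e2, pow_add]
  ring

theorem dp_ofD (f : ℕ → ℕ) (hf : ∀ i < 100, f i < 64) (s : ℕ) {g g' : ℕ → ℕ} (h : Pm g g')
    (hs : ∀ p < 10, f6 s p = 6 * g p) :
    dp (ofD 100 f) s = ofD (10 * 10) fun i => f (10 * (i / 10) + g' (i % 10)) := by
  rw [dp_eq, ← dp_fin, ← h.sum (fun Q => ∑ P ∈ range 10, f (10 * P + g' Q) * 64 ^ (10 * P + Q))]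
  refine sum_congr rfl fun q hq => ?_
  have hq := mem_range.1 hq
  rw [dp_key f hf s g hs q hq]
  refine sum_congr rfl fun P _ => ?_
  rw [h.gg q hq]

end Vale.Agent.P355.H387U
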