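import Vale.Agent.P355.H387U.Tab
import Vale.Agent.P355.H387.Place

/-! Value functions of classes with four marks; placed matrices; class tables; accumulators. -/

namespace Vale.Agent.P355.H387U

open Finset
open Vale.Agent.P355.H387 (ofD ofD_zero ofD_succ ofD_add ofD_lt ofD_congr dg_ofD ofD_dg dg_lt
  ofD_inj land_ofD land_63 land_0 shr_ofD ofD_pad dg pk ms vl pk_cons ms_cons vl_cons seq seq_eq
  sel sel_or AT upd par_aux0 par_aux1 land_lt)

/-- exchange of the marks `0`, `1`. -/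
def s01 (i : ℕ) : ℕ := if i = 0 then 1 else if i = 1 then 0 else i
/-- exchange of the marks `2`, `3`. -/
def s23 (i : ℕ) : ℕ := if i = 2 then 3 else if i = 3 then 2 else i
/-- exchange of the two pairs of marks. -/
def sx (i : ℕ) : ℕ := if i = 0 then 2 else if i = 1 then 3 else if i = 2 then 0 else
  if i = 3 then 1 else i

/-- invariance of a class function. -/
structure Cls (F : Bool → NM → ℝ) : Prop where
  ext : ∀ b G G', (∀ i < 10, ∀ j < 10, G i j = G' i j) → F b G = F b G'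
  perm : ∀ b G (σ : Equiv.Perm (Fin 6)), F b (fun i j => G (gx σ i) j) = F b G
  trans : ∀ b G, F b (fun i j => G j i) = F b G
  neg : ∀ b G, F b (fun i j => - G i j) = F b G
  fold : ∀ b G, F b (fold G) = F b G
  m01 : ∀ b G, F b (fun i j => G (s01 i) (s01 j)) = F b G
  m23 : ∀ b G, F b (fun i j => G (s23 i) (s23 j)) = F b G
  mx : ∀ b G, F b (fun i j => G (sx i) (sx j)) = F b G

variable {F : Bool → NM → ℝ}

theorem Cls.permc (h : Cls F) (b : Bool) (G : NM) (σ : Equiv.Perm (Fin 6)) :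
    F b (fun i j => G i (gx σ j)) = F b G := by
  rw [← h.trans b (fun i j => G i (gx σ j)), ← h.trans b G]
  exact h.perm b (fun i j => G j i) σ

theorem gm_tab : ∀ i < 10, gm 0 i = i ∧ gm 1 i = s01 i ∧ gm 2 i = s23 i ∧
    gm 3 i = s23 (s01 i) ∧ gm 4 i = sx i ∧ gm 5 i = s01 (sx i) ∧ gm 6 i = s23 (sx i) ∧
    gm 7 i = s23 (s01 (sx i)) := by decide +kernel

theorem Cls.mark (h : Cls F) (b : Bool) (G : NM) (m : ℕ) (hm : m < 8) :
    F b (fun i j => G (gm m i) (gm m j)) = F b G := by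
  have key : ∀ g : ℕ → ℕ, (∀ i < 10, gm m i = g i) →
      F b (fun i j => G (g i) (g j)) = F b G → F b (fun i j => G (gm m i) (gm m j)) = F b G := by
    intro g hg hh
    rw [← hh]
    exact h.ext b _ _ fun i hi j hj => by rw [hg i hi, hg j hj]
  interval_cases m
  · exact key (fun i => i) (fun i hi => (gm_tab i hi).1) rfl
  · exact key s01 (fun i hi => (gm_tab i hi).2.1) (h.m01 b G)
  · exact key s23 (fun i hi => (gm_tab i hi).2.2.1) (h.m23 b G)
  · refine key (fun i => s23 (s01 i)) (fun i hi => (gm_tab i hi).2.2.2.1) ?_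
    rw [h.m01 b (fun i j => G (s23 i) (s23 j)), h.m23 b G]
  · exact key sx (fun i hi => (gm_tab i hi).2.2.2.2.1) (h.mx b G)
  · refine key (fun i => s01 (sx i)) (fun i hi => (gm_tab i hi).2.2.2.2.2.1) ?_
    rw [h.mx b (fun i j => G (s01 i) (s01 j)), h.m01 b G]
  · refine key (fun i => s23 (sx i)) (fun i hi => (gm_tab i hi).2.2.2.2.2.2.1) ?_
    rw [h.mx b (fun i j => G (s23 i) (s23 j)), h.m23 b G]
  · refine key (fun i => s23 (s01 (sx i))) (fun i hi => (gm_tab i hi).2.2.2.2.2.2.2) ?_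
    rw [h.mx b (fun i j => G (s23 (s01 i)) (s23 (s01 j))),
      h.m01 b (fun i j => G (s23 i) (s23 j)), h.m23 b G]

/-- placed number; `rc` = index of the row permutation (10 bits), index of the column permutation
(10 bits), symmetry of the marks (3 bits), transposition, fold, sign. -/
def place (X rc : ℕ) (k : ℕ → Bool) : Bool :=
  seq (sel (Nat.land (Nat.shiftRight rc 23) 1) X (trp X)) fun X0 =>
  seq (sel (Nat.land (Nat.shiftRight rc 24) 1) X0 (fd X0)) fun X1 =>
  seq (Nat.land (Nat.shiftRight rc 20) 7) fun m =>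
  seq (sOf (Nat.land rc 1023) m) fun s =>
  seq (tOf (Nat.land (Nat.shiftRight rc 10) 1023) m) fun t =>
  seq (bp X1 s) fun X2 =>
  seq (dp X2 t) fun X3 =>
  seq (sel (Nat.land (Nat.shiftRight rc 25) 1) X3 (ng X3)) k

theorem land_lt7 (n : ℕ) : Nat.land n 7 < 8 := by
  have : Nat.land n 7 = n % 2 ^ 3 := Nat.and_two_pow_sub_one_eq_mod n 3
  rw [this]
  exact Nat.mod_lt _ (by norm_num)

theorem place_sound (hF : Cls F) {X : ℕ} {G : NM} (h : Enc X G) (rc : ℕ) (k : ℕ → Bool)
    (hk : place X rc k = true) :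
    ∃ Y G', Enc Y G' ∧ (∀ b, F b G' = F b G) ∧ k Y = true := by
  unfold place at hk
  simp only [seq_eq] at hk
  obtain ⟨X0, hX0⟩ : ∃ X0, X0 = sel (Nat.land (Nat.shiftRight rc 23) 1) X (trp X) := ⟨_, rfl⟩
  rw [← hX0] at hk
  obtain ⟨G0, e0, f0⟩ : ∃ G0, Enc X0 G0 ∧ ∀ b, F b G0 = F b G := by
    rcases sel_or (Nat.land (Nat.shiftRight rc 23) 1) X (trp X) with h1 | h1
    · exact ⟨G, by rw [hX0, h1]; exact h, fun _ => rfl⟩
    · exact ⟨_, by rw [hX0, h1]; exact h.trp, fun b => hF.trans b G⟩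
  obtain ⟨X1, hX1⟩ : ∃ X1, X1 = sel (Nat.land (Nat.shiftRight rc 24) 1) X0 (fd X0) := ⟨_, rfl⟩
  rw [← hX1] at hk
  obtain ⟨G1, e1, f1⟩ : ∃ G1, Enc X1 G1 ∧ ∀ b, F b G1 = F b G := by
    rcases sel_or (Nat.land (Nat.shiftRight rc 24) 1) X0 (fd X0) with h1 | h1
    · exact ⟨G0, by rw [hX1, h1]; exact e0, f0⟩
    · exact ⟨_, by rw [hX1, h1]; exact e0.fd, fun b => (hF.fold b G0).trans (f0 b)⟩
  obtain ⟨m, hm⟩ : ∃ m, m = Nat.land (Nat.shiftRight rc 20) 7 := ⟨_, rfl⟩
  have hm8 : m < 8 := by rw [hm]; exact land_lt7 _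
  rw [← hm] at hk
  obtain ⟨σ, a⟩ := tab_spec _ (land_lt rc)
  obtain ⟨τ, b⟩ := tab_spec _ (land_lt (Nat.shiftRight rc 10))
  have e2 := e1.bp _ (pm_g σ m hm8) (a m hm8).1
  have e3 := e2.dp _ (pm_g τ m hm8) (b m hm8).2
  have f3 : ∀ b, F b (fun i j => G1 (gx σ.symm (gm (iv m) i)) (gx τ.symm (gm (iv m) j)))
      = F b G := fun b => by
    rw [hF.mark b (fun i j => G1 (gx σ.symm i) (gx τ.symm j)) (iv m)
      (gm_iv m hm8 0 (by norm_num)).2.2.2.2.1, ← f1 b, ← hF.perm b G1 σ.symm,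
      ← hF.permc b (fun i j => G1 (gx σ.symm i) j) τ.symm]
  obtain ⟨X3, hX3⟩ : ∃ X3, X3 = dp (bp X1 (sOf (Nat.land rc 1023) m))
    (tOf (Nat.land (Nat.shiftRight rc 10) 1023) m) := ⟨_, rfl⟩
  rw [← hX3] at hk e3
  rcases sel_or (Nat.land (Nat.shiftRight rc 25) 1) X3 (ng X3) with h1 | h1
  · rw [h1] at hk
    exact ⟨_, _, e3, f3, hk⟩
  · rw [h1] at hk
    exact ⟨_, _, e3.ng, fun b => (hF.neg b _).trans (f3 b), hk⟩

/-! ### class tables -/

/-- binary table of class codes: leaves hold 64 entries of 604 bits. -/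
inductive CT where
  | lf : ℕ → CT
  | nd : CT → CT → CT

/-- entry of a leaf. -/
def ent (C lo : ℕ) : ℕ := Nat.land (Nat.shiftRight C (Nat.mul 604 lo))
  66392249102095887336198525819058578416199139715878990399930517275050444982606530342395312783153660708611166185780812626918322417206588404926189997345823418992978908854424152378966015

/-- look up. -/
noncomputable def CT.get (t : CT) : ℕ → ℕ → ℕ :=
  CT.rec (motive := fun _ => ℕ → ℕ → ℕ) (fun C _ lo => ent C lo)
    (fun _ _ ia ib hi lo => Nat.rec (motive := fun _ => ℕ) (ia (Nat.shiftRight hi 1) lo)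
      (fun _ _ => ib (Nat.shiftRight hi 1) lo) (Nat.land hi 1)) t

/-- `2 ^ 600`. -/
def pb : ℕ := 4149515568880992958512407863691161151012446232242436899995657329690652811412908146399707048947103794288197886611300789182395151075411775307886874834113963687061181803401509523685376

theorem pb_eq : pb = 64 ^ 100 := by decide +kernel

/-- value of an entry: bits `0..599` the matrix, bit `600` the parity. -/
noncomputable def FV (F : Bool → NM → ℝ) (E : ℕ) : ℝ := F (decide ((E / pb) % 2 = 1)) (matOf E)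

theorem two_pow_six' (k : ℕ) : (2 : ℕ) ^ (6 * k) = 64 ^ k := by rw [pow_mul]; norm_num

theorem FV_enc (hF : Cls F) {Y : ℕ} {G : NM} (h : Enc Y G) (b : Bool) :
    FV F (Nat.add Y (cond b pb 0)) = F b G := by
  have hY : Y < pb := by
    have := ofD_lt 100 _ (fun i hi => df_lt G h.2 i hi)
    rw [← h.1] at this
    rw [pb_eq]; exact this
  unfold FV
  have e2 : decide ((Nat.add Y (cond b pb 0) / pb) % 2 = 1) = b := by
    show decide (((Y + cond b pb 0) / pb) % 2 = 1) = b
    cases b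
    · simp only [cond_false, add_zero]
      exact par_aux0 Y pb hY
    · simp only [cond_true]
      exact par_aux1 Y pb hY
  rw [e2]
  refine hF.ext b _ _ fun i hi j hj => ?_
  rw [← h.matOf i hi j hj]
  unfold H387U.matOf
  congr 2
  show dg 6 (Y + cond b pb 0) _ = _
  cases b
  · simp
  · simp only [cond_true]
    obtain ⟨m, hm⟩ : ∃ m, 100 = (10 * i + j) + 1 + m :=
      ⟨100 - ((10 * i + j) + 1), by omega⟩
    unfold dg
    have e3 : pb = 2 ^ (6 * (10 * i + j)) * (2 ^ 6 * 64 ^ m) := by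
      rw [two_pow_six', pb_eq]
      conv_lhs => rw [hm]
      rw [pow_add, pow_add]
      norm_num [mul_assoc]
    rw [Nat.shiftRight_eq_div_pow, Nat.shiftRight_eq_div_pow, e3,
      Nat.add_mul_div_left _ _ (by positivity), Nat.add_mul_mod_self_left]

/-- the accumulator `t` stands for the value `V` (of mass at most `S`). -/
def AF (F : Bool → NM → ℝ) : CT → AT → ℕ → ℝ → Prop
  | .lf C, .lf X, S, V => ∃ (T : List (ℤ × ℕ)) (c : ℕ), (X : ℤ) = c + 2 ^ 64 * pk 64 T ∧
      (c : ℤ) + ms T ≤ S ∧ vl (fun lo => FV F (ent C lo)) T = V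
  | .nd a b, .nd a' b', S, V => ∃ V1 V2, AF F a a' S V1 ∧ AF F b b' S V2 ∧ V = V1 + V2
  | .lf _, .nd _ _, _, _ => False
  | .nd _ _, .lf _, _, _ => False

theorem AF.mono {ct : CT} {t : AT} {S S' : ℕ} {V : ℝ} (h : AF F ct t S V) (hS : S ≤ S') :
    AF F ct t S' V := by
  induction ct generalizing t V with
  | lf C =>
    cases t with
    | lf X =>
      obtain ⟨T, c, h1, h2, h3⟩ := h
      exact ⟨T, c, h1, h2.trans (by exact_mod_cast hS), h3⟩
    | nd _ _ => exact h
  | nd a b iha ihb =>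
    cases t with
    | lf X => exact h
    | nd a' b' =>
      obtain ⟨V1, V2, h1, h2, h3⟩ := h
      exact ⟨V1, V2, iha h1, ihb h2, h3⟩

theorem AF.ins {ct : CT} {t : AT} {S : ℕ} {V : ℝ} (h : AF F ct t S V) (hi lo c : ℕ)
    (k : AT → Bool) (hk : t.ins hi (upd c lo) k = true) :
    ∃ t', AF F ct t' (S + c + 1) (V + c * FV F (ct.get hi lo)) ∧ k t' = true := by
  induction ct generalizing t V hi k with
  | lf C =>
    cases t with
    | nd _ _ => exact absurd h (by simp [AF])
    | lf X =>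
      obtain ⟨T, n, h1, h2, h3⟩ := h
      have hk' : k (AT.lf (upd c lo X)) = true := by
        have : (AT.lf X).ins hi (upd c lo) k = seq (upd c lo X) fun X' => k (AT.lf X') := rfl
        rw [this, seq_eq] at hk
        exact hk
      refine ⟨AT.lf (upd c lo X), ?_, hk'⟩
      show ∃ (T : List (ℤ × ℕ)) (n' : ℕ), ((upd c lo X : ℕ) : ℤ) = n' + 2 ^ 64 * pk 64 T ∧
        (n' : ℤ) + ms T ≤ (S + c + 1 : ℕ) ∧ vl (fun lo => FV F (ent C lo)) T
          = V + c * FV F ((CT.lf C).get hi lo)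
      refine ⟨((c : ℤ), lo) :: T, n + 1, ?_, ?_, ?_⟩
      · have e1 : upd c lo X = X + (c * 2 ^ (64 * (lo + 1)) + 1) := by
          unfold upd
          show X + (Nat.shiftLeft c (64 * (lo + 1)) + 1) = _
          rw [shl_eq]
        rw [e1, pk_cons]
        push_cast
        rw [h1, mul_add, pow_add]
        ring
      · rw [ms_cons]; push_cast
        have : |(c : ℤ)| = c := abs_of_nonneg (by positivity)
        rw [this]; linarith
      · rw [vl_cons, h3]; push_cast
        have : (CT.lf C).get hi lo = ent C lo := rfl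
        rw [this]; ring
  | nd a b iha ihb =>
    cases t with
    | lf _ => exact absurd h (by simp [AF])
    | nd a' b' =>
      obtain ⟨V1, V2, h1, h2, rfl⟩ := h
      have hg : (CT.nd a b).get hi lo = Nat.rec (motive := fun _ => ℕ) (a.get (Nat.shiftRight hi 1) lo)
        (fun _ _ => b.get (Nat.shiftRight hi 1) lo) (Nat.land hi 1) := rfl
      have hi' : (AT.nd a' b').ins hi (upd c lo) k = Nat.rec (motive := fun _ => Bool)
        (a'.ins (Nat.shiftRight hi 1) (upd c lo) fun a' => k (AT.nd a' b'))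
        (fun _ _ => b'.ins (Nat.shiftRight hi 1) (upd c lo) fun b' => k (AT.nd a' b'))
        (Nat.land hi 1) := rfl
      rw [hi'] at hk
      rw [hg]
      obtain ⟨m, hm⟩ : ∃ m, m = Nat.land hi 1 := ⟨_, rfl⟩
      rw [← hm] at hk ⊢
      cases m with
      | zero =>
        obtain ⟨t', e1, e2⟩ := iha h1 _ _ hk
        refine ⟨AT.nd t' b', ?_, e2⟩
        show ∃ W1 W2, AF F a t' (S + c + 1) W1 ∧ AF F b b' (S + c + 1) W2 ∧ _ = W1 + W2
        exact ⟨_, _, e1, h2.mono (by omega), by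
          show V1 + V2 + (c : ℝ) * FV F (a.get (Nat.shiftRight hi 1) lo) = _
          ring⟩
      | succ m =>
        obtain ⟨t', e1, e2⟩ := ihb h2 _ _ hk
        refine ⟨AT.nd a' t', ?_, e2⟩
        show ∃ W1 W2, AF F a a' (S + c + 1) W1 ∧ AF F b t' (S + c + 1) W2 ∧ _ = W1 + W2
        exact ⟨_, _, h1.mono (by omega), e1, by ring⟩

end Vale.Agent.P355.H387U
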