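import Vale.Agent.P355.H387U.Row
import Vale.Agent.P355.H387.RowChk

/-! Lists of rows with four marks, final comparison. -/

namespace Vale.Agent.P355.H387U

open Finset
open Vale.Agent.P355.H387 (ofD ofD_zero ofD_succ ofD_add ofD_lt ofD_congr dg_ofD ofD_dg dg_lt
  ofD_inj land_ofD land_63 land_0 shr_ofD ofD_pad dg pk ms vl pk_cons ms_cons vl_cons seq seq_eq
  sel sel_or AT upd par_aux0 par_aux1 land_lt eqT shr_pk cnt_lt pk_zero pk_append pk_smulT
  ms_append ms_smulT vl_append vl_smulT smulT)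

/-- one row: `A` receives `lam` times the left side, `B` the right side. -/
noncomputable def core (ct : CT) (X i i' b lam R : ℕ) (A B : AT) (k : AT → AT → Bool) : Bool :=
  six ct X (pw' b) lam 6 (Nat.shiftLeft (wpos i) 18) (Nat.shiftLeft (wneg i i') 18) R A fun A' =>
  cond (isz i i') (k A' B)
    (seq (Nat.add X (Nat.shiftLeft 1 (Nat.add (Nat.mul 60 i) (Nat.mul 6 i')))) fun X0 =>
    seq (Nat.shiftRight R 288) fun rc =>
    seq (sel b (Nat.mul 6 lam) lam) fun lk =>
    tm ct X0 (pw b) rc lk B fun B' => k A' B')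

/-- one row record (1024 bits). -/
noncomputable def row (ct : CT) (r S : ℕ) (P Q : AT) (k : ℕ → AT → AT → Bool) : Bool :=
  seq (Nat.land r 4149515568880992958512407863691161151012446232242436899995657329690652811412908146399707048947103794288197886611300789182395151075411775307886874834113963687061181803401509523685375) fun X =>
  seq (Nat.land (Nat.shiftRight r 600) 15) fun i =>
  seq (Nat.land (Nat.shiftRight r 604) 15) fun i' =>
  seq (Nat.land (Nat.shiftRight r 608) 1) fun b =>
  seq (Nat.land (Nat.shiftRight r 610) 281474976710655) fun lam =>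
  seq (Nat.shiftRight r 658) fun R =>
  seq (Nat.add S (Nat.mul 6 (Nat.succ lam))) fun S' =>
  cond (small X)
    (cond (okR i i')
      (Nat.rec (motive := fun _ => Bool)
        (core ct X i i' b lam R P Q fun P' Q' => k S' P' Q')
        (fun _ _ => core ct X i i' b lam R Q P fun Q' P' => k S' P' Q')
        (Nat.land (Nat.shiftRight r 609) 1))
      false) false

theorem m600_mod (r : ℕ) : Nat.land r 4149515568880992958512407863691161151012446232242436899995657329690652811412908146399707048947103794288197886611300789182395151075411775307886874834113963687061181803401509523685375 < 64 ^ 100 :=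
  lt_of_le_of_lt Nat.and_le_right (by norm_num)

theorem land15 (r : ℕ) : Nat.land r 15 < 16 := lt_of_le_of_lt Nat.and_le_right (by norm_num)

theorem pw_eq (b : ℕ) : pw b = cond (decide (b ≠ 0)) pb 0 := by cases b <;> rfl
theorem pw'_eq (b : ℕ) : pw' b = cond (!decide (b ≠ 0)) pb 0 := by cases b <;> rfl
theorem lk_eq (b lam : ℕ) : ((sel b (Nat.mul 6 lam) lam : ℕ) : ℝ) = lam * kap (decide (b ≠ 0)) := by
  cases b with
  | zero =>
    show ((6 * lam : ℕ) : ℝ) = _
    simp [kap]; ring
  | succ b =>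
    show ((lam : ℕ) : ℝ) = _
    simp [kap]
theorem lk_le (b lam : ℕ) : sel b (Nat.mul 6 lam) lam ≤ 6 * lam := by
  cases b with
  | zero => exact le_rfl
  | succ b => show lam ≤ 6 * lam; omega

variable {F : Bool → NM → ℝ}

theorem okR_lt' : ∀ i < 16, ∀ i' < 16, okR i i' = true → ¬ isz i i' = true → i < 10 ∧ i' < 10 := by
  decide +kernel

theorem core_sound (hL : Law F) {ct : CT} {X i i' b lam R : ℕ} {A B : AT} {S : ℕ} {V W : ℝ}
    {G : NM} (h : X = ofD 100 (df G)) (hs : ∀ i < 10, ∀ j < 10, |G i j| ≤ 16)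
    (hi1 : i < 16) (hi1' : i' < 16)
    (hok : okR i i' = true) (hA : AF F ct A S V) (hB : AF F ct B S W)
    (k : AT → AT → Bool) (hk : core ct X i i' b lam R A B k = true) :
    ∃ A' B' V' W', AF F ct A' (S + 6 * (lam + 1)) V' ∧ AF F ct B' (S + 6 * (lam + 1)) W' ∧
      V' - W' = V - W ∧ k A' B' = true := by
  unfold core at hk
  obtain ⟨hw, w2, w3⟩ := okW_spec hi1 hi1' hok
  have e1 : ∀ a : ℕ, Nat.shiftLeft a 18 = a * 64 ^ 3 := fun a => by rw [shl_eq]; norm_num
  rw [w2, w3, e1, e1, pw'_eq] at hk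
  obtain ⟨A', a1, a2⟩ := six_sound hL.toCls h hs (!decide (b ≠ 0)) lam (wgt i i') hw _ 6 3 (by omega)
    R A S V hA hk
  have hsum : ∑ j ∈ range 6, F (!decide (b ≠ 0)) (addG G (wgt i i') (3 + 1 + j))
      = if isz i i' = true then 0 else kap (decide (b ≠ 0)) * F (decide (b ≠ 0)) (addG G (vgt i) i') :=
    hL.row i i' hok (decide (b ≠ 0)) G
  rw [hsum] at a1
  by_cases hz : isz i i' = true
  · rw [hz] at a1 a2
    simp only [cond_true, if_true, mul_zero, add_zero] at a1 a2
    exact ⟨A', B, V, W, a1, hB.mono (by omega), rfl, a2⟩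
  · obtain ⟨hi, hi'⟩ := okR_lt' i hi1 i' hi1' hok hz
    rw [Bool.not_eq_true] at hz
    rw [hz] at a1 a2
    simp only [cond_false, seq_eq, Bool.false_eq_true, if_false] at a1 a2
    rw [pw_eq] at a2
    have h0 := enc_cell h hs i hi i' hi'
    obtain ⟨B', b1, b2⟩ := tm_sound hL.toCls h0 (decide (b ≠ 0)) _ _ hB _ a2
    refine ⟨A', B', _, _, a1, b1.mono ?_, ?_, b2⟩
    · have := lk_le b lam; omega
    · rw [lk_eq]; ring

theorem row_sound (hL : Law F) {ct : CT} {r S : ℕ} {P Q : AT} {V W : ℝ}
    (hP : AF F ct P S V) (hQ : AF F ct Q S W)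
    (k : ℕ → AT → AT → Bool) (hk : row ct r S P Q k = true) :
    ∃ S' P' Q' V' W', AF F ct P' S' V' ∧ AF F ct Q' S' W' ∧ V' - W' = V - W ∧
      k S' P' Q' = true := by
  unfold row at hk
  simp only [seq_eq] at hk
  generalize hX : Nat.land r _ = X at hk
  have hXlt : X < 64 ^ 100 := hX ▸ m600_mod r
  have hk2 := land15 (Nat.shiftRight r 600)
  have hk3 := land15 (Nat.shiftRight r 604)
  generalize Nat.land (Nat.shiftRight r 600) 15 = i at hk hk2
  generalize Nat.land (Nat.shiftRight r 604) 15 = i' at hk hk3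
  generalize Nat.land (Nat.shiftRight r 608) 1 = b at hk
  generalize Nat.land (Nat.shiftRight r 610) _ = lam at hk
  generalize Nat.shiftRight r 658 = R at hk
  generalize Nat.land (Nat.shiftRight r 609) 1 = sg at hk
  have hS : Nat.add S (Nat.mul 6 (Nat.succ lam)) = S + 6 * (lam + 1) := rfl
  rw [hS] at hk
  cases hsm : small X with
  | false => rw [hsm] at hk; simp at hk
  | true =>
    cases hok : okR i i' with
    | false => rw [hsm, hok] at hk; simp at hk
    | true =>
      rw [hsm, hok] at hk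
      simp only [cond_true] at hk
      obtain ⟨G, h1, h2⟩ := small_spec hXlt hsm
      cases sg with
      | zero =>
        obtain ⟨A', B', V', W', c1, c2, c3, c4⟩ :=
          core_sound hL h1 h2 hk2 hk3 hok hP hQ _ hk
        exact ⟨_, A', B', V', W', c1, c2, c3, c4⟩
      | succ sg =>
        obtain ⟨A', B', V', W', c1, c2, c3, c4⟩ :=
          core_sound hL h1 h2 hk2 hk3 hok hQ hP _ hk
        exact ⟨_, B', A', W', V', c2, c1, by linarith, c4⟩

/-- `n` rows of a chunk. -/
noncomputable def rowsN (ct : CT) (n : ℕ) :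
    ℕ → ℕ → AT → AT → (ℕ → AT → AT → Bool) → Bool :=
  Nat.rec (motive := fun _ => ℕ → ℕ → AT → AT → (ℕ → AT → AT → Bool) → Bool)
    (fun _ S P Q k => k S P Q)
    (fun _ ih C S P Q k =>
      seq (Nat.land C 179769313486231590772930519078902473361797697894230657273430081157732675805500963132708477322407536021120113879871393357658789768814416622492847430639474124377767893424865485276302219601246094119453082952085005768838150682342462881473913110540827237163350510684586298239947245938479716304835356329624224137215) fun r =>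
      row ct r S P Q fun S' P' Q' => seq (Nat.shiftRight C 1024) fun C' => ih C' S' P' Q' k) n

theorem rowsN_sound (hL : Law F) {ct : CT} (k : ℕ → AT → AT → Bool) (n : ℕ) :
    ∀ (C S : ℕ) (P Q : AT) (V W : ℝ), AF F ct P S V → AF F ct Q S W →
    rowsN ct n C S P Q k = true →
    ∃ S' P' Q' V' W', AF F ct P' S' V' ∧ AF F ct Q' S' W' ∧ V' - W' = V - W ∧
      k S' P' Q' = true := by
  induction n with
  | zero =>
    intro C S P Q V W hP hQ hk
    exact ⟨S, P, Q, V, W, hP, hQ, rfl, hk⟩
  | succ n ih =>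
    intro C S P Q V W hP hQ hk
    have hstep : rowsN ct (n + 1) C S P Q k = seq (Nat.land C 179769313486231590772930519078902473361797697894230657273430081157732675805500963132708477322407536021120113879871393357658789768814416622492847430639474124377767893424865485276302219601246094119453082952085005768838150682342462881473913110540827237163350510684586298239947245938479716304835356329624224137215) fun r =>
      row ct r S P Q fun S' P' Q' => seq (Nat.shiftRight C 1024) fun C' =>
        rowsN ct n C' S' P' Q' k := rfl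
    rw [hstep, seq_eq] at hk
    obtain ⟨S1, P1, Q1, V1, W1, a1, a2, a3, a4⟩ := row_sound hL hP hQ _ hk
    rw [seq_eq] at a4
    obtain ⟨S2, P2, Q2, V2, W2, b1, b2, b3, b4⟩ := ih _ _ _ _ _ _ a1 a2 a4
    exact ⟨S2, P2, Q2, V2, W2, b1, b2, b3.trans a3, b4⟩

/-- a list of chunks: (number of rows, packed rows). -/
noncomputable def rowsL (ct : CT) (L : List (ℕ × ℕ)) :
    ℕ → AT → AT → (ℕ → AT → AT → Bool) → Bool :=
  List.rec (motive := fun _ => ℕ → AT → AT → (ℕ → AT → AT → Bool) → Bool)
    (fun S P Q k => k S P Q)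
    (fun c _ ih S P Q k => rowsN ct c.1 c.2 S P Q fun S' P' Q' => ih S' P' Q' k) L

theorem rowsL_sound (hL : Law F) {ct : CT} (k : ℕ → AT → AT → Bool) (L : List (ℕ × ℕ)) :
    ∀ (S : ℕ) (P Q : AT) (V W : ℝ), AF F ct P S V → AF F ct Q S W →
    rowsL ct L S P Q k = true →
    ∃ S' P' Q' V' W', AF F ct P' S' V' ∧ AF F ct Q' S' W' ∧ V' - W' = V - W ∧
      k S' P' Q' = true := by
  induction L with
  | nil =>
    intro S P Q V W hP hQ hk
    exact ⟨S, P, Q, V, W, hP, hQ, rfl, hk⟩
  | cons c L ih =>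
    intro S P Q V W hP hQ hk
    obtain ⟨S1, P1, Q1, V1, W1, a1, a2, a3, a4⟩ := rowsN_sound hL _ _ _ _ _ _ _ _ hP hQ hk
    obtain ⟨S2, P2, Q2, V2, W2, b1, b2, b3, b4⟩ := ih _ _ _ _ _ a1 a2 a4
    exact ⟨S2, P2, Q2, V2, W2, b1, b2, b3.trans a3, b4⟩

/-- zero accumulator of the shape of a table. -/
noncomputable def zeroT (ct : CT) : AT :=
  CT.rec (motive := fun _ => AT) (fun _ => AT.lf 0) (fun _ _ a b => AT.nd a b) ct

theorem AF.zero (ct : CT) : AF F ct (zeroT ct) 0 0 := by
  induction ct with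
  | lf C => exact ⟨[], 0, by simp, by simp, by simp⟩
  | nd a b iha ihb => exact ⟨0, 0, iha, ihb, by simp⟩


/-! ### Sparse packed lists: entries of 80 bits (id 20, sign 1, magnitude 59) -/

/-- insert one entry. -/
noncomputable def one (e S : ℕ) (P Q : AT) (k : ℕ → AT → AT → Bool) : Bool :=
  seq (Nat.land e 63) fun lo =>
  seq (Nat.land (Nat.shiftRight e 6) 16383) fun hi =>
  seq (Nat.shiftRight e 21) fun c =>
  seq (Nat.add S (Nat.succ c)) fun S' =>
  Nat.rec (motive := fun _ => Bool) (P.ins hi (upd c lo) fun P' => k S' P' Q)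
    (fun _ _ => Q.ins hi (upd c lo) fun Q' => k S' P Q') (Nat.land (Nat.shiftRight e 20) 1)

/-- value of an entry. -/
noncomputable def ev (F : Bool → NM → ℝ) (ct : CT) (e : ℕ) : ℝ :=
  (if Nat.land (Nat.shiftRight e 20) 1 = 0 then 1 else -1) * ((Nat.shiftRight e 21 : ℕ) : ℝ) *
    FV F (ct.get (Nat.land (Nat.shiftRight e 6) 16383) (Nat.land e 63))

theorem one_sound {ct : CT} {e S : ℕ} {P Q : AT} {V W : ℝ} (hP : AF F ct P S V)
    (hQ : AF F ct Q S W) (k : ℕ → AT → AT → Bool) (hk : one e S P Q k = true) :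
    ∃ S' P' Q' V' W', AF F ct P' S' V' ∧ AF F ct Q' S' W' ∧ V' - W' = V - W + ev F ct e ∧
      k S' P' Q' = true := by
  unfold one at hk
  simp only [seq_eq] at hk
  unfold ev
  generalize Nat.land (Nat.shiftRight e 20) 1 = sg at hk ⊢
  have hS : Nat.add S (Nat.succ (Nat.shiftRight e 21)) = S + Nat.shiftRight e 21 + 1 := rfl
  cases sg with
  | zero =>
    obtain ⟨P', a1, a2⟩ := hP.ins _ _ _ _ hk
    exact ⟨_, P', Q, _, _, a1, hQ.mono (by rw [hS] at *; omega), by simp; ring, by rw [hS] at a2; exact a2⟩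
  | succ sg =>
    obtain ⟨Q', a1, a2⟩ := hQ.ins _ _ _ _ hk
    exact ⟨_, P, Q', _, _, hP.mono (by rw [hS] at *; omega), a1, by simp; ring, by rw [hS] at a2; exact a2⟩

/-- `n` entries. -/
noncomputable def loadN (n : ℕ) : ℕ → ℕ → AT → AT → (ℕ → AT → AT → Bool) → Bool :=
  Nat.rec (motive := fun _ => ℕ → ℕ → AT → AT → (ℕ → AT → AT → Bool) → Bool)
    (fun _ S P Q k => k S P Q)
    (fun _ ih C S P Q k => seq (Nat.land C 1208925819614629174706175) fun e =>
      one e S P Q fun S' P' Q' => seq (Nat.shiftRight C 80) fun C' => ih C' S' P' Q' k) n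

/-- value of `n` entries. -/
noncomputable def evN (F : Bool → NM → ℝ) (ct : CT) (n : ℕ) : ℕ → ℝ :=
  Nat.rec (motive := fun _ => ℕ → ℝ) (fun _ => 0)
    (fun _ ih C => ev F ct (Nat.land C 1208925819614629174706175) + ih (Nat.shiftRight C 80)) n

theorem loadN_sound {ct : CT} (k : ℕ → AT → AT → Bool) (n : ℕ) :
    ∀ (C S : ℕ) (P Q : AT) (V W : ℝ), AF F ct P S V → AF F ct Q S W →
    loadN n C S P Q k = true →
    ∃ S' P' Q' V' W', AF F ct P' S' V' ∧ AF F ct Q' S' W' ∧ V' - W' = V - W + evN F ct n C ∧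
      k S' P' Q' = true := by
  induction n with
  | zero =>
    intro C S P Q V W hP hQ hk
    exact ⟨S, P, Q, V, W, hP, hQ, by simp [evN], hk⟩
  | succ n ih =>
    intro C S P Q V W hP hQ hk
    have hstep : loadN (n + 1) C S P Q k = seq (Nat.land C 1208925819614629174706175) fun e =>
      one e S P Q fun S' P' Q' => seq (Nat.shiftRight C 80) fun C' =>
        loadN n C' S' P' Q' k := rfl
    have hev : evN F ct (n + 1) C = ev F ct (Nat.land C 1208925819614629174706175)
      + evN F ct n (Nat.shiftRight C 80) := rfl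
    rw [hstep, seq_eq] at hk
    obtain ⟨S1, P1, Q1, V1, W1, a1, a2, a3, a4⟩ := one_sound hP hQ _ hk
    rw [seq_eq] at a4
    obtain ⟨S2, P2, Q2, V2, W2, b1, b2, b3, b4⟩ := ih _ _ _ _ _ _ a1 a2 a4
    exact ⟨S2, P2, Q2, V2, W2, b1, b2, by rw [b3, a3, hev]; ring, b4⟩

/-- a sparse list: chunks (number of entries, packed entries). -/
noncomputable def loadL (L : List (ℕ × ℕ)) : ℕ → AT → AT → (ℕ → AT → AT → Bool) → Bool :=
  List.rec (motive := fun _ => ℕ → AT → AT → (ℕ → AT → AT → Bool) → Bool)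
    (fun S P Q k => k S P Q)
    (fun c _ ih S P Q k => loadN c.1 c.2 S P Q fun S' P' Q' => ih S' P' Q' k) L

/-- value of a sparse list. -/
noncomputable def evL (F : Bool → NM → ℝ) (ct : CT) (L : List (ℕ × ℕ)) : ℝ :=
  (L.map fun c => evN F ct c.1 c.2).sum

theorem loadL_sound {ct : CT} (k : ℕ → AT → AT → Bool) (L : List (ℕ × ℕ)) :
    ∀ (S : ℕ) (P Q : AT) (V W : ℝ), AF F ct P S V → AF F ct Q S W →
    loadL L S P Q k = true →
    ∃ S' P' Q' V' W', AF F ct P' S' V' ∧ AF F ct Q' S' W' ∧ V' - W' = V - W + evL F ct L ∧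
      k S' P' Q' = true := by
  induction L with
  | nil =>
    intro S P Q V W hP hQ hk
    exact ⟨S, P, Q, V, W, hP, hQ, by simp [evL], hk⟩
  | cons c L ih =>
    intro S P Q V W hP hQ hk
    obtain ⟨S1, P1, Q1, V1, W1, a1, a2, a3, a4⟩ := loadN_sound _ _ _ _ _ _ _ _ hP hQ hk
    obtain ⟨S2, P2, Q2, V2, W2, b1, b2, b3, b4⟩ := ih _ _ _ _ _ a1 a2 a4
    refine ⟨S2, P2, Q2, V2, W2, b1, b2, ?_, b4⟩
    rw [b3, a3]
    simp only [evL, List.map_cons, List.sum_cons]
    ring

/-! ### Equality of accumulators -/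

theorem eqT_sound {ct : CT} : ∀ {P Q : AT} {S S' : ℕ} {V W : ℝ}, AF F ct P S V → AF F ct Q S' W →
    S < 2 ^ 63 → S' < 2 ^ 63 → eqT P Q = true → V = W := by
  induction ct with
  | lf C =>
    intro P Q S S' V W hP hQ hS hS' hf
    cases P with
    | nd _ _ => exact absurd hP (by simp [AF])
    | lf X =>
      cases Q with
      | nd _ _ => exact absurd hQ (by simp [AF])
      | lf Y =>
        obtain ⟨T, c, h1, h2, h3⟩ := hP
        obtain ⟨T', c', h1', h2', h3'⟩ := hQ
        have hb : Nat.beq (Nat.shiftRight X 64) (Nat.shiftRight Y 64) = true := hf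
        have hb' := Nat.eq_of_beq_eq_true hb
        have e1 := shr_pk h1 (cnt_lt h2 hS)
        have e2 := shr_pk h1' (cnt_lt h2' hS')
        have e3 := pk_zero (val := fun lo => FV F (ent C lo)) (T := T ++ smulT (-1) T')
          (by rw [pk_append, pk_smulT, ← e1, ← e2, hb']; ring)
          (by
            rw [ms_append, ms_smulT]
            have hc : (0 : ℤ) ≤ c := by positivity
            have hc' : (0 : ℤ) ≤ c' := by positivity
            have a1 : (S : ℤ) < 2 ^ 63 := by exact_mod_cast hS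
            have a2 : (S' : ℤ) < 2 ^ 63 := by exact_mod_cast hS'
            norm_num at a1 a2 ⊢
            linarith)
        rw [vl_append, vl_smulT, h3, h3'] at e3
        push_cast at e3
        linarith
  | nd a b iha ihb =>
    intro P Q S S' V W hP hQ hS hS' hf
    cases P with
    | lf _ => exact absurd hP (by simp [AF])
    | nd pa pb' =>
      cases Q with
      | lf _ => exact absurd hQ (by simp [AF])
      | nd qa qb =>
        obtain ⟨V1, V2, h1, h2, h3⟩ := hP
        obtain ⟨W1, W2, g1, g2, g3⟩ := hQ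
        have hb : cond (eqT pa qa) (eqT pb' qb) false = true := hf
        cases hz : eqT pa qa with
        | false => rw [hz] at hb; simp at hb
        | true =>
          rw [hz] at hb
          simp only [cond_true] at hb
          rw [h3, g3, iha h1 g1 hS hS' hz, ihb h2 g2 hS hS' hb]

/-- **module of rows**: the sparse list `out` is the combination of the rows. -/
noncomputable def ckRows (ct : CT) (L out : List (ℕ × ℕ)) : Bool :=
  rowsL ct L 0 (zeroT ct) (zeroT ct) fun S P Q =>
    loadL out S Q P fun S' Q' P' => cond (Nat.blt S' 9223372036854775808) (eqT P' Q') false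

theorem ckRows_sound (hL : Law F) {ct : CT} {L out : List (ℕ × ℕ)}
    (h : ckRows ct L out = true) : evL F ct out = 0 := by
  unfold ckRows at h
  obtain ⟨S1, P1, Q1, V1, W1, a1, a2, a3, a4⟩ := rowsL_sound hL _ _ _ _ _ _ _
    (AF.zero ct) (AF.zero ct) h
  obtain ⟨S2, Q2, P2, W2, V2, b1, b2, b3, b4⟩ := loadL_sound _ _ _ _ _ _ _ a2 a1 a4
  cases hz : Nat.blt S2 9223372036854775808 with
  | false => rw [hz] at b4; simp at b4
  | true =>
    rw [hz] at b4
    simp only [cond_true] at b4
    have hS : S2 < 2 ^ 63 := by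
      rw [Nat.blt_eq] at hz
      norm_num; exact hz
    have := eqT_sound b2 b1 hS hS b4
    linarith

/-- **merging** of sparse lists. -/
noncomputable def ckMerge (ct : CT) (Ls : List (List (ℕ × ℕ))) (out : List (ℕ × ℕ)) : Bool :=
  loadL Ls.flatten 0 (zeroT ct) (zeroT ct) fun S P Q =>
    loadL out S Q P fun S' Q' P' => cond (Nat.blt S' 9223372036854775808) (eqT P' Q') false

theorem evL_append (ct : CT) (A B : List (ℕ × ℕ)) : evL F ct (A ++ B) = evL F ct A + evL F ct B := by
  simp [evL]

theorem evL_flatten (ct : CT) (Ls : List (List (ℕ × ℕ))) :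
    evL F ct Ls.flatten = (Ls.map (evL F ct)).sum := by
  induction Ls with
  | nil => simp [evL]
  | cons L Ls ih => rw [List.flatten_cons, evL_append, ih]; simp

theorem ckMerge_sound {ct : CT} {Ls : List (List (ℕ × ℕ))} {out : List (ℕ × ℕ)}
    (h : ckMerge ct Ls out = true) : (Ls.map (evL F ct)).sum = evL F ct out := by
  unfold ckMerge at h
  obtain ⟨S1, P1, Q1, V1, W1, a1, a2, a3, a4⟩ := loadL_sound (F := F) _ _ _ _ _ _ _
    (AF.zero ct) (AF.zero ct) h
  obtain ⟨S2, Q2, P2, W2, V2, b1, b2, b3, b4⟩ := loadL_sound _ _ _ _ _ _ _ a2 a1 a4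
  cases hz : Nat.blt S2 9223372036854775808 with
  | false => rw [hz] at b4; simp at b4
  | true =>
    rw [hz] at b4
    simp only [cond_true] at b4
    have hS : S2 < 2 ^ 63 := by
      rw [Nat.blt_eq] at hz
      norm_num; exact hz
    have := eqT_sound b2 b1 hS hS b4
    rw [evL_flatten] at a3
    linarith

end Vale.Agent.P355.H387U
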