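import Vale.Agent.P355.H387U.Enc

/-! Transposition of a packed 10 x 10 matrix. -/

namespace Vale.Agent.P355.H387U

open Finset
open Vale.Agent.P355.H387 (ofD ofD_zero ofD_succ ofD_add ofD_lt ofD_congr dg_ofD ofD_dg dg_lt ofD_inj land_ofD land_63 land_0 shr_ofD ofD_pad dg)

/-- mask of the diagonal `q - p = d`. -/
def mk (d : ℕ) : ℕ := ofD 100 fun i => if i % 10 = i / 10 + d then 63 else 0

/-- transposition. -/
def trp (X : ℕ) : ℕ :=
  (Nat.add (Nat.add (Nat.add (Nat.add (Nat.add (Nat.add (Nat.add (Nat.add (Nat.add (Nat.land X 4084679388117227443591009219152279994770241045023949309404865965423398478434833871708989833930508478390128166700532916099583697577530569833595067038060587011555802914956690075942975)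
    (Nat.add (Nat.shiftLeft (Nat.land X 3542894613202767151511314250259231102185010016586375500816154566193805287885003576811735812322156911882462127211014624953211175886697856454716932942933064868171712) 54) (Nat.land (Nat.shiftRight X 54) 3542894613202767151511314250259231102185010016586375500816154566193805287885003576811735812322156911882462127211014624953211175886697856454716932942933064868171712)))
    (Nat.add (Nat.shiftLeft (Nat.land X 3072971229217304852807906299111433743955811376766924358797240251871441408981943160121562245575482882795818647551750108775854543232111893264199680) 108) (Nat.land (Nat.shiftRight X 108) 3072971229217304852807906299111433743955811376766924358797240251871441408981943160121562245575482882795818647551750108775854543232111893264199680)))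
    (Nat.add (Nat.shiftLeft (Nat.land X 2665377666162282351010245125189976458896487663373830629199128180200699223830910315863296782663389719241468299059999194612498432) 162) (Nat.land (Nat.shiftRight X 162) 2665377666162282351010245125189976458896487663373830629199128180200699223830910315863296782663389719241468299059999194612498432)))
    (Nat.add (Nat.shiftLeft (Nat.land X 2311846604917992083735038826358320194779151209874884708230590047752568714909292207102754059206720891503247360) 216) (Nat.land (Nat.shiftRight X 216) 2311846604917992083735038826358320194779151209874884708230590047752568714909292207102754059206720891503247360)))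
    (Nat.add (Nat.shiftLeft (Nat.land X 2005207289204259741197676850768469472198431849635229171974369316363222890989708765195927552) 270) (Nat.land (Nat.shiftRight X 270) 2005207289204259741197676850768469472198431849635229171974369316363222890989708765195927552)))
    (Nat.add (Nat.shiftLeft (Nat.land X 1739240079391222074457129575700683216282787937920243138251148482985328640) 324) (Nat.land (Nat.shiftRight X 324) 1739240079391222074457129575700683216282787937920243138251148482985328640)))
    (Nat.add (Nat.shiftLeft (Nat.land X 1508550298039859344966942523731566486412312229625987072) 378) (Nat.land (Nat.shiftRight X 378) 1508550298039859344966942523731566486412312229625987072)))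
    (Nat.add (Nat.shiftLeft (Nat.land X 1308458808350776562407417998496235520) 432) (Nat.land (Nat.shiftRight X 432) 1308458808350776562407417998496235520)))
    (Nat.add (Nat.shiftLeft (Nat.land X 1134907106097364992) 486) (Nat.land (Nat.shiftRight X 486) 1134907106097364992)))

theorem mk_0 : 4084679388117227443591009219152279994770241045023949309404865965423398478434833871708989833930508478390128166700532916099583697577530569833595067038060587011555802914956690075942975 = mk 0 := by decide +kernel
theorem mk_1 : 3542894613202767151511314250259231102185010016586375500816154566193805287885003576811735812322156911882462127211014624953211175886697856454716932942933064868171712 = mk 1 := by decide +kernel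
theorem mk_2 : 3072971229217304852807906299111433743955811376766924358797240251871441408981943160121562245575482882795818647551750108775854543232111893264199680 = mk 2 := by decide +kernel
theorem mk_3 : 2665377666162282351010245125189976458896487663373830629199128180200699223830910315863296782663389719241468299059999194612498432 = mk 3 := by decide +kernel
theorem mk_4 : 2311846604917992083735038826358320194779151209874884708230590047752568714909292207102754059206720891503247360 = mk 4 := by decide +kernel
theorem mk_5 : 2005207289204259741197676850768469472198431849635229171974369316363222890989708765195927552 = mk 5 := by decide +kernel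
theorem mk_6 : 1739240079391222074457129575700683216282787937920243138251148482985328640 = mk 6 := by decide +kernel
theorem mk_7 : 1508550298039859344966942523731566486412312229625987072 = mk 7 := by decide +kernel
theorem mk_8 : 1308458808350776562407417998496235520 = mk 8 := by decide +kernel
theorem mk_9 : 1134907106097364992 = mk 9 := by decide +kernel

theorem land_mk (f : ℕ → ℕ) (hf : ∀ i < 100, f i < 64) (d : ℕ) :
    Nat.land (ofD 100 f) (mk d) = ofD 100 fun i => if i % 10 = i / 10 + d then f i else 0 := by
  unfold mk
  rw [land_ofD 100 _ _ hf (fun i hi => by split_ifs <;> norm_num)]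
  refine ofD_congr fun i hi => ?_
  split_ifs with h
  · exact land_63 _ (hf _ hi)
  · exact land_0 _

theorem land_shr_mk (f : ℕ → ℕ) (hf : ∀ i < 100, f i < 64) (d : ℕ) (hd : d ≤ 9) (s : ℕ)
    (hs : s = 6 * (9 * d)) :
    Nat.land (Nat.shiftRight (ofD 100 f) s) (mk d)
      = ofD 100 fun i => if i % 10 = i / 10 + d then f (i + 9 * d) else 0 := by
  subst hs
  rw [shr_ofD 100 (9 * d) f hf (by omega)]
  have h1 : ofD (100 - 9 * d) (fun i => f (9 * d + i))
      = ofD 100 fun i => if i + 9 * d < 100 then f (9 * d + i) else 0 := by
    have h2 : 100 = (100 - 9 * d) + 9 * d := by omega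
    conv_rhs => rw [h2]
    rw [ofD_pad (100 - 9 * d) (9 * d) _ fun i hi hi' => if_neg (by omega)]
    exact ofD_congr fun i hi => (if_pos (by omega)).symm
  rw [h1]
  unfold mk
  rw [land_ofD 100 _ _ (fun i hi => by
    split_ifs
    · exact hf _ (by omega)
    · norm_num) (fun i hi => by split_ifs <;> norm_num)]
  refine ofD_congr fun i hi => ?_
  by_cases h3 : i % 10 = i / 10 + d
  · have h4 : i + 9 * d < 100 := by omega
    rw [if_pos h3, if_pos h4, if_pos h3, land_63 _ (hf _ (by omega)), add_comm]
  · rw [if_neg h3, if_neg h3, land_0]


/-- double sum form. -/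
theorem ofD_100 (f : ℕ → ℕ) : ofD 100 f = ∑ p ∈ range 10, ∑ q ∈ range 10, f (10 * p + q) * 64 ^ (10 * p + q) := by
  have h := ofD_blocks 10 f
  rw [show 10 * 10 = 100 from rfl] at h
  rw [h]
  refine sum_congr rfl fun p _ => ?_
  unfold ofD
  rw [mul_sum]
  refine sum_congr rfl fun q _ => ?_
  rw [pow_add]; ring

theorem up_sum (f : ℕ → ℕ) (d : ℕ) (s : ℕ) (hs : s = 6 * (9 * d)) :
    Nat.shiftLeft (ofD 100 fun i => if i % 10 = i / 10 + d then f i else 0) s
      = ∑ p ∈ range 10, ∑ q ∈ range 10, if q = p + d then f (10 * p + q) * 64 ^ (10 * q + p) else 0 := by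
  subst hs
  rw [shl_eq, two_pow_six, ofD_100, sum_mul]
  refine sum_congr rfl fun p hp => ?_
  rw [sum_mul]
  refine sum_congr rfl fun q hq => ?_
  have hp := mem_range.1 hp
  have hq := mem_range.1 hq
  have e1 : (10 * p + q) / 10 = p := by omega
  have e2 : (10 * p + q) % 10 = q := by omega
  rw [e1, e2]
  split_ifs with h
  · rw [mul_assoc, ← pow_add]
    congr 2
    omega
  · simp

theorem lo_sum (f : ℕ → ℕ) (d : ℕ) :
    (ofD 100 fun i => if i % 10 = i / 10 + d then f (i + 9 * d) else 0)
      = ∑ p ∈ range 10, ∑ q ∈ range 10, if q = p + d then f (10 * q + p) * 64 ^ (10 * p + q) else 0 := by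
  rw [ofD_100]
  refine sum_congr rfl fun p hp => sum_congr rfl fun q hq => ?_
  have hp := mem_range.1 hp
  have hq := mem_range.1 hq
  have e1 : (10 * p + q) / 10 = p := by omega
  have e2 : (10 * p + q) % 10 = q := by omega
  rw [e1, e2]
  split_ifs with h
  · have : 10 * p + q + 9 * d = 10 * q + p := by omega
    rw [this]
  · simp

theorem di_sum (f : ℕ → ℕ) :
    (ofD 100 fun i => if i % 10 = i / 10 + 0 then f i else 0)
      = ∑ p ∈ range 10, ∑ q ∈ range 10, if q = p then f (10 * q + p) * 64 ^ (10 * p + q) else 0 := by
  rw [ofD_100]
  refine sum_congr rfl fun p hp => sum_congr rfl fun q hq => ?_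
  have hp := mem_range.1 hp
  have hq := mem_range.1 hq
  have e1 : (10 * p + q) / 10 = p := by omega
  have e2 : (10 * p + q) % 10 = q := by omega
  rw [e1, e2, add_zero]
  split_ifs with h
  · subst h; rfl
  · simp

theorem trp_ofD (f : ℕ → ℕ) (hf : ∀ i < 100, f i < 64) :
    trp (ofD 100 f) = ofD 100 fun i => f (10 * (i % 10) + i / 10) := by
  unfold trp
  rw [mk_0, mk_1, mk_2, mk_3, mk_4, mk_5, mk_6, mk_7, mk_8, mk_9]
  rw [land_mk f hf, land_mk f hf, land_mk f hf, land_mk f hf, land_mk f hf, land_mk f hf,
    land_mk f hf, land_mk f hf, land_mk f hf, land_mk f hf]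
  rw [land_shr_mk f hf 1 (by norm_num) _ rfl, land_shr_mk f hf 2 (by norm_num) _ rfl,
    land_shr_mk f hf 3 (by norm_num) _ rfl, land_shr_mk f hf 4 (by norm_num) _ rfl,
    land_shr_mk f hf 5 (by norm_num) _ rfl, land_shr_mk f hf 6 (by norm_num) _ rfl,
    land_shr_mk f hf 7 (by norm_num) _ rfl, land_shr_mk f hf 8 (by norm_num) _ rfl,
    land_shr_mk f hf 9 (by norm_num) _ rfl]
  rw [up_sum f 1 _ rfl, up_sum f 2 _ rfl, up_sum f 3 _ rfl, up_sum f 4 _ rfl, up_sum f 5 _ rfl,
    up_sum f 6 _ rfl, up_sum f 7 _ rfl, up_sum f 8 _ rfl, up_sum f 9 _ rfl, lo_sum, lo_sum, lo_sum,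
    lo_sum, lo_sum, lo_sum, lo_sum, lo_sum, lo_sum, di_sum, ofD_100]
  have hR : (∑ p ∈ range 10, ∑ q ∈ range 10, f (10 * ((10 * p + q) % 10) + (10 * p + q) / 10) * 64 ^ (10 * p + q))
      = ∑ p ∈ range 10, ∑ q ∈ range 10, f (10 * q + p) * 64 ^ (10 * p + q) := by
    refine sum_congr rfl fun p hp => sum_congr rfl fun q hq => ?_
    have hp := mem_range.1 hp
    have hq := mem_range.1 hq
    have e1 : (10 * p + q) / 10 = p := by omega
    have e2 : (10 * p + q) % 10 = q := by omega
    rw [e1, e2]
  rw [hR]
  simp only [Nat.add_eq]
  generalize hA : (fun p q : ℕ => f (10 * q + p) * 64 ^ (10 * p + q)) = A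
  have hA1 : ∀ p q, f (10 * q + p) * 64 ^ (10 * p + q) = A p q := fun p q => by rw [← hA]
  simp only [hA1]
  simp only [sum_range_succ, range_zero, sum_empty]
  norm_num
  ring

theorem Enc.trp {X : ℕ} {G : NM} (h : Enc X G) : Enc (trp X) (fun i j => G j i) := by
  refine ⟨?_, fun i hi j hj => h.2 _ hj _ hi⟩
  rw [h.1, trp_ofD _ (fun i hi => df_lt G h.2 i hi)]
  refine ofD_congr fun i hi => ?_
  unfold df
  have e1 : (10 * (i % 10) + i / 10) / 10 = i % 10 := by omega
  have e2 : (10 * (i % 10) + i / 10) % 10 = i / 10 := by omega
  rw [e1, e2]

end Vale.Agent.P355.H387U
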